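import Vale.Agent.P144D.I.T.Defs
import Vale.Agent.P144D.I.Conv

/-!
The inequalities of Fortuin, Kasteleyn and Ginibre for the partition functions with outer spins.
-/

namespace Vale.Agent.P144Z

open Finset Matrix IConv

namespace IT

variable {M : ℕ} [NeZero M]

theorem tc_mem : 0 ≤ tc ∧ tc ≤ 1 := by
  have h1 : (1 : ℝ) ≤ √2 := Real.one_le_sqrt.2 one_le_two
  have h2 : √2 ≤ (2 : ℝ) := Real.sqrt_le_iff.2 ⟨zero_le_two, by norm_num⟩
  unfold tc
  constructor <;> linarith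

/-- The weight of a spin configuration. -/
noncomputable def mu (I : Finset (Tor M)) (σ : Tor M → Bool) : ℝ := wt (pwI I) tc (nOf I σ)

theorem mu_eq (I : Finset (Tor M)) (σ : Tor M → Bool) : mu I σ = ∏ e : Tor M × Fin 2,
    if xor (σ e.1) (σ (oth e)) then (if pwI I e = 1 then tc else 1) else 1 := by
  refine prod_congr rfl fun e _ => ?_
  show (if (xor (σ e.1) (σ (oth e)) && decide (e.1 ∈ I ∨ oth e ∈ I)) = true then tc * pwI I e
    else 1) = _
  by_cases h : e.1 ∈ I ∨ oth e ∈ I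
  · simp [h, pwI_eq_one.2 h]
  · simp [h, pwI_eq_one]

theorem mu_nonneg (I : Finset (Tor M)) (σ : Tor M → Bool) : 0 ≤ mu I σ := by
  rw [mu_eq]
  refine prod_nonneg fun e _ => ?_
  split_ifs
  exacts [tc_mem.1, zero_le_one, zero_le_one]

theorem bond_le {x : ℝ} (h0 : 0 ≤ x) (h1 : x ≤ 1) (a a' b b' : Bool) :
    (if xor a a' then x else 1) * (if xor b b' then x else 1) ≤
      (if xor (a ⊓ b) (a' ⊓ b') then x else 1) * if xor (a ⊔ b) (a' ⊔ b') then x else 1 := by
  have h2 : x * x ≤ 1 := mul_le_one₀ h1 h0 h1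
  cases a <;> cases a' <;> cases b <;> cases b' <;> simp [h2]

theorem mu_le (I : Finset (Tor M)) (a b : Tor M → Bool) :
    mu I a * mu I b ≤ mu I (a ⊓ b) * mu I (a ⊔ b) := by
  simp only [mu_eq, ← prod_mul_distrib]
  have h : ∀ e, 0 ≤ (if pwI I e = 1 then tc else 1) ∧ (if pwI I e = 1 then tc else 1) ≤ 1 :=
    fun e => by
      split_ifs
      exacts [tc_mem, ⟨zero_le_one, le_rfl⟩]
  refine prod_le_prod (fun e _ => mul_nonneg ?_ ?_) fun e _ => bond_le (h e).1 (h e).2 _ _ _ _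
  all_goals
    split
    exacts [(h e).1, zero_le_one]

open Classical in
/-- The total weight of the configurations with the property `P`. -/
noncomputable def Zp (I : Finset (Tor M)) (P : (Tor M → Bool) → Prop) : ℝ :=
  ∑ σ, if P σ then mu I σ else 0

open Classical in
theorem ite_nonneg (I : Finset (Tor M)) (P : (Tor M → Bool) → Prop) (σ : Tor M → Bool) :
    0 ≤ if P σ then mu I σ else 0 := by
  split_ifs
  exacts [mu_nonneg I σ, le_rfl]

theorem Zp_nonneg (I : Finset (Tor M)) (P : (Tor M → Bool) → Prop) : 0 ≤ Zp I P :=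
  sum_nonneg fun σ _ => ite_nonneg I P σ

theorem Zp_mono (I : Finset (Tor M)) {P Q : (Tor M → Bool) → Prop} (h : ∀ σ, P σ → Q σ) :
    Zp I P ≤ Zp I Q := by
  refine sum_le_sum fun σ _ => ?_
  by_cases h1 : P σ
  · rw [if_pos h1, if_pos (h σ h1)]
  · rw [if_neg h1]
    exact ite_nonneg I Q σ

theorem Zp_congr (I : Finset (Tor M)) {P Q : (Tor M → Bool) → Prop} (h : ∀ σ, P σ ↔ Q σ) :
    Zp I P = Zp I Q := by rw [show P = Q from funext fun σ => propext (h σ)]

theorem Zp_or (I : Finset (Tor M)) (P Q : (Tor M → Bool) → Prop) :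
    Zp I (fun σ => P σ ∨ Q σ) ≤ Zp I P + Zp I Q := by
  rw [Zp, Zp, Zp, ← sum_add_distrib]
  refine sum_le_sum fun σ _ => ?_
  have h1 := mu_nonneg I σ
  by_cases hP : P σ <;> by_cases hQ : Q σ <;> simp [hP, hQ, h1]

theorem four (I : Finset (Tor M)) {P₁ P₂ P₃ P₄ : (Tor M → Bool) → Prop}
    (h : ∀ a b, P₁ a → P₂ b → P₃ (a ⊓ b) ∧ P₄ (a ⊔ b)) :
    Zp I P₁ * Zp I P₂ ≤ Zp I P₃ * Zp I P₄ := by
  refine four_functions_theorem_univ _ _ _ _ (ite_nonneg I P₁) (ite_nonneg I P₂) (ite_nonneg I P₃)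
    (ite_nonneg I P₄) fun a b => ?_
  by_cases h1 : P₁ a
  · by_cases h2 : P₂ b
    · rw [if_pos h1, if_pos h2, if_pos (h a b h1 h2).1, if_pos (h a b h1 h2).2]
      exact mu_le I a b
    · rw [if_neg h2, mul_zero]
      exact mul_nonneg (ite_nonneg I _ _) (ite_nonneg I _ _)
  · rw [if_neg h1, zero_mul]
    exact mul_nonneg (ite_nonneg I _ _) (ite_nonneg I _ _)

theorem Zb_eq (I : Finset (Tor M)) (τ : Tor M → Bool) :
    Zb I τ = Zp I fun σ => ∀ u, u ∉ I → σ u = τ u := by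
  refine sum_congr rfl fun σ _ => ?_
  split_ifs <;> rfl

/-- The partition function of a smaller set of faces. -/
theorem Zb_sub {I U : Finset (Tor M)} (hU : U ⊆ I) {τ : Tor M → Bool}
    (h : ∀ e, pwI U e = 0 → pwI I e = 1 → dom τ e = false) :
    Zb U τ = Zp I fun σ => ∀ u, u ∉ U → σ u = τ u := by
  rw [Zb_eq]
  refine sum_congr rfl fun σ _ => ?_
  split_ifs with hσ
  · rw [mu_eq, mu_eq]
    refine prod_congr rfl fun e _ => ?_
    rcases pwI_val U e with h1 | h1
    · rcases pwI_val I e with h2 | h2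
      · rw [h1, h2]
      · have h3 := pwI_eq_zero.1 h1
        have h4 : xor (τ e.1) (τ (oth e)) = false := h e h1 h2
        rw [hσ _ h3.1, hσ _ h3.2, h4]
        rfl
    · rw [h1, pwI_eq_one.2 ((pwI_eq_one.1 h1).imp (fun h => hU h) fun h => hU h)]
  · rfl

theorem Zb_nonneg (I : Finset (Tor M)) (τ : Tor M → Bool) : 0 ≤ Zb I τ := by
  rw [Zb_eq]
  exact Zp_nonneg I _

theorem Zb_congr {I : Finset (Tor M)} {τ τ' : Tor M → Bool} (h : ∀ u, u ∉ I → τ u = τ' u) :
    Zb I τ = Zb I τ' := by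
  rw [Zb_eq, Zb_eq]
  exact Zp_congr I fun σ => forall₂_congr fun u hu => by rw [h u hu]

theorem mu_not (I : Finset (Tor M)) (σ : Tor M → Bool) : mu I (fun u => !σ u) = mu I σ := by
  simp only [mu_eq, Bool.not_xor_not]

/-- The spin flip. -/
theorem Zp_not (I : Finset (Tor M)) (P : (Tor M → Bool) → Prop) :
    Zp I (fun σ => P fun u => !σ u) = Zp I P := by
  refine Eq.trans (sum_congr rfl fun σ _ => ?_) ((Function.Involutive.bijective
    (f := fun (σ : Tor M → Bool) u => !σ u) fun σ => by simp).sum_comp _)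
  rw [mu_not]

theorem Zb_not (I : Finset (Tor M)) (τ : Tor M → Bool) : Zb I (fun u => !τ u) = Zb I τ := by
  rw [Zb_eq, Zb_eq, ← Zp_not]
  exact Zp_congr I fun σ => by simp only [Bool.not_inj_iff]

end IT

open IT

theorem fkgStmt : FkgStmt := by
  intro M _ I
  refine ⟨fun τ τ' => ?_, fun U hU τ h1 h2 => ?_⟩
  · rw [Zb_eq, Zb_eq, Zb_eq, Zb_eq]
    refine four I fun a b ha hb => ⟨fun u hu => ?_, fun u hu => ?_⟩
    · rw [Pi.inf_apply, Pi.inf_apply, ha u hu, hb u hu]
    · rw [Pi.sup_apply, Pi.sup_apply, ha u hu, hb u hu]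
  · rw [Zb_sub hU h2, Zb_sub hU (τ := fun _ => true) fun _ _ _ => rfl, Zb_eq, Zb_eq]
    refine four I fun a b ha hb => ⟨fun u hu => ?_, fun u hu => ?_⟩
    · rw [Pi.inf_apply, ha u fun h => hu (hU h), hb u hu]
      cases τ u <;> rfl
    · rw [Pi.sup_apply]
      by_cases h : u ∈ I
      · rw [ha u hu, h1 u h hu]
        cases b u <;> rfl
      · rw [hb u h]
        cases a u <;> rfl

/-- The plus boundary condition has the largest partition function. -/
theorem IT.Zb_le_top {M : ℕ} [NeZero M] (I : Finset (Tor M)) (τ : Tor M → Bool) :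
    Zb I τ ≤ Zb I fun _ => true := by
  have h := (fkgStmt M I).1 τ fun u => !τ u
  have e1 : (τ ⊓ fun u => !τ u) = fun u => !(fun _ => true) u := funext fun u => by
    rw [Pi.inf_apply]
    cases τ u <;> rfl
  have e2 : (τ ⊔ fun u => !τ u) = fun _ => true := funext fun u => by
    rw [Pi.sup_apply]
    cases τ u <;> rfl
  rw [e1, e2, Zb_not, Zb_not] at h
  exact le_of_sq_le_sq (by rwa [sq, sq]) (Zb_nonneg I _)

end Vale.Agent.P144Z
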