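import Vale.Agent.P144D.I.T.Defs
import Vale.Agent.P144D.I.Conv

/-!
The geometry of a tube near its cut, in coordinates.
-/

namespace Vale.Agent.P144Z

open Finset Matrix

namespace ITub

variable {M : ℕ}

theorem zd_le {u v : ℤ × ℤ} {r : ℕ} :
    zd u v ≤ r ↔ u.1 - v.1 ≤ r ∧ v.1 - u.1 ≤ r ∧ u.2 - v.2 ≤ r ∧ v.2 - u.2 ≤ r := by
  simp only [zd]
  omega

theorem zd_le0 {u : ℤ × ℤ} {r : ℕ} : zd u 0 ≤ r ↔ u.1 ≤ r ∧ -u.1 ≤ r ∧ u.2 ≤ r ∧ -u.2 ≤ r := by
  simp only [zd, Prod.fst_zero, Prod.snd_zero]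
  omega

theorem pt_inj {f : Tor M} {u v : ℤ × ℤ} (h : zd u v < M) (e : f + prj M u = f + prj M v) :
    u = v :=
  IConv.prj_inj h (add_left_cancel e)

theorem pt_add (f : Tor M) (u v : ℤ × ℤ) : f + prj M u + prj M v = f + prj M (u + v) := by
  rw [G.prj_add, add_assoc]

theorem pt_sub (f : Tor M) (u v : ℤ × ℤ) : f + prj M u - prj M v = f + prj M (u - v) := by
  rw [G.prj_sub, add_sub_assoc]

theorem pt_zero (f : Tor M) : f + prj M (0, 0) = f := by
  simp [prj]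

theorem mem_row' {f g : Tor M} {m : ℕ} :
    g ∈ row f m ↔ ∃ i : ℤ, 1 ≤ i ∧ i ≤ m ∧ g = f + prj M (i, 0) := by
  simp only [row, mem_image, mem_Icc]
  constructor
  · rintro ⟨i, ⟨h1, h2⟩, rfl⟩
    exact ⟨i, by omega, by omega, rfl⟩
  · rintro ⟨i, h1, h2, rfl⟩
    refine ⟨i.toNat, ⟨by omega, by omega⟩, ?_⟩
    rw [Int.toNat_of_nonneg (by omega)]

theorem mem_row {f : Tor M} {m : ℕ} {v : ℤ × ℤ} (h : zd v 0 + m < M) :
    f + prj M v ∈ row f m ↔ 1 ≤ v.1 ∧ v.1 ≤ m ∧ v.2 = 0 := by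
  rw [mem_row']
  constructor
  · rintro ⟨i, h1, h2, e⟩
    have := pt_inj (by simp only [zd, Prod.fst_zero, Prod.snd_zero] at h ⊢; omega) e
    subst this
    exact ⟨h1, h2, rfl⟩
  · rintro ⟨h1, h2, h3⟩
    exact ⟨v.1, h1, h2, by rw [← h3]⟩

theorem colB_false {f u : Tor M} {a b : ℤ} :
    colB f a b u = false ↔ ∃ j, a ≤ j ∧ j < b ∧ u = f + prj M (0, j) := by
  simp only [colB, Bool.not_eq_false', decide_eq_true_eq, mem_image, mem_Ico]
  constructor
  · rintro ⟨j, ⟨h1, h2⟩, rfl⟩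
    exact ⟨j, h1, h2, rfl⟩
  · rintro ⟨j, h1, h2, rfl⟩
    exact ⟨j, ⟨h1, h2⟩, rfl⟩

theorem colB_pt {f : Tor M} {a b : ℤ} {v : ℤ × ℤ} {r : ℕ} (h : zd v 0 + r < M) (ha : -a ≤ r)
    (hb : b ≤ r) : colB f a b (f + prj M v) = false ↔ v.1 = 0 ∧ a ≤ v.2 ∧ v.2 < b := by
  rw [colB_false]
  constructor
  · rintro ⟨j, h1, h2, e⟩
    have := pt_inj (by simp only [zd, Prod.fst_zero, Prod.snd_zero] at h ⊢; omega) e
    subst this
    exact ⟨rfl, h1, h2⟩
  · rintro ⟨h1, h2, h3⟩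
    exact ⟨v.2, h2, h3, by rw [← h1]⟩

theorem edge_rep {f : Tor M} {e : Tor M × Fin 2} {u : ℤ × ℤ}
    (h : e.1 = f + prj M u ∨ oth e = f + prj M u) : ∃ v w : ℤ × ℤ, e.1 = f + prj M v ∧
      oth e = f + prj M w ∧ (u = v ∨ u = w) ∧ (w = v - (0, 1) ∨ w = v - (1, 0)) := by
  obtain ⟨x, i⟩ := e
  have key : ∃ d : ℤ × ℤ, (d = (0, 1) ∨ d = (1, 0)) ∧ oth (x, i) = x - prj M d := by
    fin_cases i
    · exact ⟨(0, 1), Or.inl rfl, by simp [oth, G.uv_one]⟩
    · exact ⟨(1, 0), Or.inr rfl, by simp [oth, G.uv_zero]⟩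
  obtain ⟨d, hd, e⟩ := key
  rcases h with h | h
  · refine ⟨u, u - d, h, ?_, Or.inl rfl, hd.imp (fun h => by rw [h]) fun h => by rw [h]⟩
    rw [e, ← pt_sub]
    exact congrArg (· - prj M d) h
  · refine ⟨u + d, u, ?_, h, Or.inr rfl, hd.imp (fun h => by simp [h]) fun h => by simp [h]⟩
    rw [← pt_add, ← h, e, sub_add_cancel]

theorem dom_hedge [NeZero M] (σ : Tor M → Bool) (x : Tor M) (a : Fin 4) :
    dom σ (hedge (x, a)) = xor (σ (x - prj M (cn (a - 1)))) (σ (x - prj M (cn a))) := by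
  have e0 : prj M ((0, 0) : ℤ × ℤ) = 0 := by simp [prj]
  have e2 : prj M ((1, 1) : ℤ × ℤ) = uv M 0 + uv M 1 := by simp [prj, uv]
  fin_cases a
  · show xor (σ x) (σ (x - uv M 1)) = xor (σ (x - prj M (0, 1))) (σ (x - prj M (0, 0)))
    rw [e0, sub_zero, G.uv_one, Bool.xor_comm]
  · show xor (σ x) (σ (x - uv M 0)) = xor (σ (x - prj M (0, 0))) (σ (x - prj M (1, 0)))
    rw [e0, sub_zero, G.uv_zero]
  · show xor (σ (x - uv M 0)) (σ (x - uv M 0 - uv M 1)) =
      xor (σ (x - prj M (1, 0))) (σ (x - prj M (1, 1)))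
    rw [e2, sub_sub, G.uv_zero]
  · show xor (σ (x - uv M 1)) (σ (x - uv M 1 - uv M 0)) =
      xor (σ (x - prj M (1, 1))) (σ (x - prj M (0, 1)))
    rw [e2, sub_sub, add_comm (uv M 1), ← G.uv_one, Bool.xor_comm]

theorem rep [NeZero M] {f g : Tor M} {u : ℤ × ℤ} {r : ℕ} (h : tdist g (f + prj M u) ≤ r) :
    ∃ v, g = f + prj M v ∧ zd v u ≤ r := by
  refine ⟨u + lft (g - (f + prj M u)), ?_, ?_⟩
  · rw [← pt_add, G.add_prj_lft]
  · rwa [IConv.zd_add_left, GeoA.zd_lft]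

theorem tdist_pt [NeZero M] (f : Tor M) {u v : ℤ × ℤ} (h : 2 * zd u v ≤ M) :
    tdist (f + prj M u) (f + prj M v) = zd u v := by
  rw [add_comm f, add_comm f, tdist_add, IConv.tdist_prj h]

/-- The walls on the cut see the spins at its two ends. -/
theorem prod_cut [NeZero M] (σ : Tor M → Bool) (f : Tor M) {m : ℕ} (hm : m + 1 < M) :
    ∏ e ∈ cutE f m, sgn (dom σ e) = sgn (σ f) * sgn (σ (f + prj M (m + 1, 0))) := by
  have key : ∀ n : ℕ, ∏ i ∈ Icc 1 n, sgn (dom σ (f + prj M ((i : ℕ), 0), 1)) =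
      sgn (σ f) * sgn (σ (f + prj M (n, 0))) := by
    intro n
    induction n with
    | zero => simp [pt_zero, I1.sgn_mul_self]
    | succ n ih =>
      rw [prod_Icc_succ_top (by omega), ih]
      have e : dom σ (f + prj M (((n + 1 : ℕ) : ℤ), 0), 1) =
          xor (σ (f + prj M (((n + 1 : ℕ) : ℤ), 0))) (σ (f + prj M (n, 0))) := by
        show xor _ (σ (_ - uv M 0)) = _
        rw [G.uv_zero, pt_sub]
        simp
      rw [e, I1.sgn_xor]
      linear_combination (sgn (σ f) * sgn (σ (f + prj M (((n + 1 : ℕ) : ℤ), 0)))) *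
        I1.sgn_mul_self (σ (f + prj M (n, 0)))
  rw [cutE, prod_image, key]
  · simp
  · intro i hi j hj e
    simp only [coe_Icc, Set.mem_Icc] at hi hj
    have := pt_inj (by simp only [zd]; omega) (congrArg Prod.fst e)
    simpa using this

theorem mem_cutE {f : Tor M} {m : ℕ} {e : Tor M × Fin 2} (h : e ∈ cutE f m) :
    ∃ i : ℤ, 1 ≤ i ∧ i ≤ m + 1 ∧ e.1 = f + prj M (i, 0) ∧ oth e = f + prj M (i - 1, 0) := by
  obtain ⟨i, hi, rfl⟩ := mem_image.1 h
  rw [mem_Icc] at hi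
  refine ⟨i, by omega, by omega, rfl, ?_⟩
  show _ - uv M 0 = _
  rw [G.uv_zero, pt_sub]
  simp

variable {W : Finset (Tor M)} {T q N : ℕ} {f : Tor M}

theorem memU (h : Tube W T q N f) (hM : 64 * T ≤ M) (hq : 1 ≤ q) {v : ℤ × ℤ}
    (hv : zd v 0 ≤ 128 * q) :
    f + prj M v ∈ W \ row f (64 * q) ↔ 1 ≤ v.1 ∧ v.1 ≤ 64 * q ∧ v.2 ≠ 0 := by
  have := h.q_le
  rw [mem_sdiff, h.loc v hv, mem_row (by omega)]
  push_cast
  omega

theorem row_sub (h : Tube W T q N f) : row f (64 * q) ⊆ W := by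
  intro g hg
  obtain ⟨i, h1, h2, rfl⟩ := mem_row'.1 hg
  rw [h.loc _ (zd_le0.2 (by push_cast at h2 ⊢; omega))]
  push_cast at h2
  exact ⟨h1, h2⟩

theorem col_out (h : Tube W T q N f) {j : ℤ} (h1 : -j ≤ 128 * q) (h2 : j ≤ 128 * q) :
    f + prj M (0, j) ∉ W := by
  rw [h.loc _ (zd_le0.2 (by push_cast; omega))]
  omega

theorem f_out (h : Tube W T q N f) : f ∉ W := by
  simpa only [pt_zero] using col_out h (j := 0) (by omega) (by omega)

theorem fR_out (h : Tube W T q N f) (hq : 1 ≤ q) : f + prj M (64 * q + 1, 0) ∉ W := by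
  rw [h.loc _ (zd_le0.2 (by push_cast; omega))]
  omega

/-- The edges that are removed by the cut. -/
theorem row_edge (h : Tube W T q N f) (hM : 64 * T ≤ M) (hq : 1 ≤ q) {e : Tor M × Fin 2}
    (h0 : pwI (W \ row f (64 * q)) e = 0) (h1 : pwI W e = 1) {P : Tor M → Prop}
    (hr : ∀ g ∈ row f (64 * q), P g) (hf : P f) (hf' : P (f + prj M (64 * q + 1, 0))) :
    P e.1 ∧ P (oth e) := by
  have hT := h.q_le
  rw [IConv.pwI_eq_zero] at h0
  rw [IConv.pwI_eq_one] at h1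
  have h2 : e.1 ∈ row f (64 * q) ∨ oth e ∈ row f (64 * q) := by
    simp only [mem_sdiff, not_and, not_not] at h0
    exact h1.imp h0.1 h0.2
  have h3 : ∃ i : ℤ, 1 ≤ i ∧ i ≤ 64 * q ∧
      (e.1 = f + prj M (i, 0) ∨ oth e = f + prj M (i, 0)) := by
    rcases h2 with h2 | h2 <;> obtain ⟨i, a, b, c⟩ := mem_row'.1 h2
    · exact ⟨i, a, by push_cast at b; omega, Or.inl c⟩
    · exact ⟨i, a, by push_cast at b; omega, Or.inr c⟩
  obtain ⟨i, i1, i2, h3⟩ := h3
  obtain ⟨⟨v1, v2⟩, ⟨w1, w2⟩, ev, ew, h4, h5⟩ := edge_rep h3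
  have key : ∀ a : ℤ, 0 ≤ a → a ≤ 64 * q + 1 → P (f + prj M (a, 0)) := by
    intro a a1 a2
    rcases eq_or_lt_of_le a1 with rfl | a1
    · rwa [pt_zero]
    rcases eq_or_lt_of_le a2 with rfl | a2
    · exact hf'
    exact hr _ (mem_row'.2 ⟨a, by omega, by push_cast; omega, rfl⟩)
  simp only [Prod.mk.injEq, Prod.mk_sub_mk] at h4 h5
  rw [ev, ew, memU h hM hq (zd_le0.2 (by push_cast; omega)),
    memU h hM hq (zd_le0.2 (by push_cast; omega))] at h0
  simp only at h0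
  obtain ⟨rfl, rfl⟩ : v2 = 0 ∧ w2 = 0 := by omega
  rw [ev, ew]
  exact ⟨key _ (by omega) (by omega), key _ (by omega) (by omega)⟩

theorem cut_pres (h : Tube W T q N f) (hq : 1 ≤ q) {e : Tor M × Fin 2}
    (he : e ∈ cutE f (64 * q)) : pwI W e = 1 := by
  obtain ⟨i, i1, i2, e1, e2⟩ := mem_cutE he
  push_cast at i2
  rw [IConv.pwI_eq_one, e1, e2, h.loc _ (zd_le0.2 (by push_cast; omega)),
    h.loc _ (zd_le0.2 (by push_cast; omega))]
  simp only
  omega

theorem cut_rem (h : Tube W T q N f) (hM : 64 * T ≤ M) (hq : 1 ≤ q) {e : Tor M × Fin 2}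
    (he : e ∈ cutE f (64 * q)) : pwI (W \ row f (64 * q)) e = 0 := by
  obtain ⟨i, i1, i2, e1, e2⟩ := mem_cutE he
  push_cast at i2
  rw [IConv.pwI_eq_zero, e1, e2, memU h hM hq (zd_le0.2 (by push_cast; omega)),
    memU h hM hq (zd_le0.2 (by push_cast; omega))]
  simp

variable [NeZero M]

theorem boxW (h : Tube W T q N f) (hM : 64 * T ≤ M) (hq : 1 ≤ q) : ∀ g ∈ W, tdist g 0 ≤ T := by
  intro g hg
  by_cases hr : g ∈ row f (64 * q)
  swap
  · exact h.cor.box g (mem_sdiff.2 ⟨hg, hr⟩)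
  obtain ⟨i, i1, i2, rfl⟩ := mem_row'.1 hr
  push_cast at i2
  have hT := h.q_le
  have a := h.cor.box _ ((memU h hM hq (v := (i, 1)) (zd_le0.2 (by push_cast; omega))).2
    (by simp only; omega))
  have b := h.f_le
  have e : ∀ v, f + prj M v = prj M (lft f + v) := fun v => by rw [G.prj_add, prj_lft]
  rw [← IConv.zd_lft_zero, zd_le0] at b
  have c : ∀ j : ℤ, -1 ≤ j → j ≤ 1 → 2 * zd (lft f + (i, j)) 0 ≤ M := by
    intro j j1 j2
    have : zd (lft f + (i, j)) 0 ≤ 2 * T := zd_le0.2 (by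
      simp only [Prod.fst_add, Prod.snd_add]; push_cast; omega)
    omega
  rw [e, IConv.tdist_prj_zero (c _ (by omega) (by omega)), zd_le0] at a ⊢
  simp only [Prod.fst_add, Prod.snd_add] at a ⊢
  omega

omit [NeZero M] in
/-- The half-edges on the left wall are marked. -/
theorem mkT_col (h : Tube W T q N f) (hq : 1 ≤ q) {κ : ℝ} (hκ : 0 ≤ κ) {a : ℤ}
    (h1 : -a ≤ 100 * q) (h2 : a ≤ 100 * q) : MkT W κ (16 * q) (f + prj M (1, a)) 0 := by
  refine ⟨⟨{v | 0 ≤ v.1}, 1, norm_one, ?_, ?_, ?_⟩, ?_, ⟨0, ?_⟩⟩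
  · intro u hu v hv
    have h3 : (0 : ℝ) ≤ v.1 := by
      simpa [ht] using (mul_nonneg hκ (GeoA.len_nonneg v)).trans hv
    have h4 : 0 ≤ v.1 := by exact_mod_cast h3
    simp only [Set.mem_ofPred_eq, Prod.fst_add] at hu ⊢
    omega
  · norm_num [ht, st4]
  · intro v hv
    rw [zd_le0] at hv
    push_cast at hv
    rw [pt_add, h.loc _ (zd_le0.2 (by simp only [Prod.fst_add, Prod.snd_add]; push_cast; omega))]
    simp only [Set.mem_ofPred_eq, Prod.fst_add]
    omega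
  · rw [pt_sub, pt_sub]
    exact ⟨col_out h (j := a - 0) (by omega) (by omega), col_out h (j := a - 1) (by omega) (by omega)⟩
  · rw [pt_sub, h.loc _ (zd_le0.2 (by simp only [cn]; push_cast; simp; omega))]
    simp [cn]
    omega

theorem side_col {X : Finset (Tor M)} (hX : X ⊆ W) {u : ℤ × ℤ} {r : ℕ}
    (h : ∀ v, zd v u ≤ r + 1 → f + prj M v ∈ W → f + prj M v ∈ X) :
    Side X W (f + prj M u) r := by
  intro x hx _ k
  obtain ⟨v, rfl, hv⟩ := rep hx
  rw [pt_sub]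
  refine ⟨fun a => hX a, h _ ?_⟩
  have := GeoA.zd_tri (v - cn k) v u
  have := IConv.zd_sub_cn v k
  omega

/-- The walls of a column of outer faces. -/
theorem mkTau_col (h : Tube W T q N f) (hM : 64 * T ≤ M) (hq : 1 ≤ q) {X : Finset (Tor M)}
    (hX : X ⊆ W) {a b : ℤ} (h1 : -a ≤ 100 * q) (h2 : b ≤ 100 * q) (hab : a < b)
    (hin : ∀ j, a ≤ j → j < b → f + prj M (1, j) ∈ X) :
    MkTau X (colB f a b) ![colS f b, colS f a] := by
  have hT := h.q_le
  have hc : ∀ v : ℤ × ℤ, zd v 0 ≤ 128 * q →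
      (colB f a b (f + prj M v) = false ↔ v.1 = 0 ∧ a ≤ v.2 ∧ v.2 < b) :=
    fun v hv => colB_pt (r := 100 * q) (by omega) (by push_cast; omega) (by push_cast; omega)
  have rem : ∀ j : ℤ, -j ≤ 100 * q → j ≤ 100 * q → pwI X (hedge (colS f j)) = 0 := by
    intro j j1 j2
    have := (mkT_col h hq le_rfl j1 j2).rem
    exact IConv.pwI_hedge_zero.2 ⟨fun c => this.1 (hX c), fun c => this.2 (hX c)⟩
  have wall : ∀ y : ℤ, -y ≤ 101 * q → y ≤ 101 * q →
      (dom (colB f a b) (hedge (f + prj M (1, y), 2)) = true ↔ y = b ∨ y = a) := by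
    intro y y1 y2
    rw [dom_hedge, pt_sub, pt_sub]
    have c1 := hc (0, y) (zd_le0.2 (by push_cast; omega))
    have c2 := hc (0, y - 1) (zd_le0.2 (by push_cast; omega))
    have e1 : ((1, y) : ℤ × ℤ) - cn (2 - 1) = (0, y) := by simp [cn]
    have e2 : ((1, y) : ℤ × ℤ) - cn 2 = (0, y - 1) := by simp [cn]
    rw [e1, e2]
    revert c1 c2
    cases colB f a b (f + prj M (0, y)) <;> cases colB f a b (f + prj M (0, y - 1)) <;> simp <;>
      omega
  refine ⟨?_, ?_, ?_⟩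
  · intro i j e
    have ne : f + prj M (1, b) ≠ f + prj M (1, a) := fun e => by
      have := pt_inj (by simp only [zd]; omega) e
      simp only [Prod.mk.injEq] at this
      omega
    fin_cases i <;> fin_cases j
    · rfl
    · exact absurd e ne
    · exact absurd e.symm ne
    · rfl
  · intro i
    fin_cases i
    · refine ⟨⟨3, ?_⟩, rem b (by omega) h2⟩
      show f + prj M (1, b) - _ ∈ X
      rw [pt_sub]
      simpa [cn] using hin (b - 1) (by omega) (by omega)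
    · refine ⟨⟨0, ?_⟩, rem a h1 (by omega)⟩
      show f + prj M (1, a) - _ ∈ X
      rw [pt_sub]
      simpa [cn] using hin a (by omega) (by omega)
  · intro x d ⟨k, hk⟩ hr
    constructor
    swap
    · rintro ⟨i, hi⟩
      rw [← hi]
      fin_cases i
      · exact (wall b (by omega) (by omega)).2 (Or.inl rfl)
      · exact (wall a (by omega) (by omega)).2 (Or.inr rfl)
    intro hd
    have h3 : ∃ k', colB f a b (x - prj M (cn k')) = false := by
      rw [dom_hedge] at hd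
      by_contra hn
      push Not at hn
      rw [eq_true_of_ne_false (hn _), eq_true_of_ne_false (hn _)] at hd
      simp at hd
    obtain ⟨k', h3⟩ := h3
    obtain ⟨j, j1, j2, h3⟩ := colB_false.1 h3
    rw [sub_eq_iff_eq_add, pt_add] at h3
    have c1 := zd_le0.1 (IConv.zd_cn k')
    have c2 := zd_le0.1 (IConv.zd_cn k)
    have c3 : 0 ≤ (cn k).1 := by fin_cases k <;> simp [cn]
    obtain ⟨⟨v1, y⟩, hv⟩ : ∃ v, v = (0, j) + cn k' := ⟨_, rfl⟩
    rw [← hv] at h3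
    simp only [Prod.ext_iff, Prod.fst_add, Prod.snd_add] at hv
    push_cast at c1 c2
    subst h3
    have h4 := hX hk
    rw [pt_sub, h.loc _ (zd_le0.2 (by simp only [Prod.fst_sub, Prod.snd_sub]; push_cast; omega))]
      at h4
    simp only [Prod.fst_sub] at h4
    obtain rfl : v1 = 1 := by omega
    rw [IConv.pwI_hedge_zero, pt_sub, pt_sub] at hr
    have c4 : ∀ z : ℤ, -z ≤ 102 * q → z ≤ 102 * q → colB f a b (f + prj M (1, z)) = true :=
      fun z z1 z2 => eq_true_of_ne_false fun c => by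
        have := (hc _ (zd_le0.2 (by push_cast; omega))).1 c
        simp at this
    have c5 : ∀ z : ℤ, -z ≤ 102 * q → z ≤ 102 * q → f + prj M (1, z) ∉ X →
        colB f a b (f + prj M (0, z)) = true :=
      fun z z1 z2 z3 => eq_true_of_ne_false fun c => by
        have := (hc _ (zd_le0.2 (by push_cast; omega))).1 c
        exact z3 (hin z this.2.1 this.2.2)
    fin_cases d
    · rw [dom_hedge, pt_sub, pt_sub] at hd
      have e1 : ((1, y) : ℤ × ℤ) - cn 3 = (1, y - 1) := by simp [cn]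
      have e2 : ((1, y) : ℤ × ℤ) - cn 0 = (1, y) := by simp [cn]
      change xor (colB f a b (f + prj M ((1, y) - cn 3))) (colB f a b (f + prj M ((1, y) - cn 0)))
        = true at hd
      rw [e1, e2, c4 _ (by omega) (by omega), c4 _ (by omega) (by omega)] at hd
      simp at hd
    · rw [dom_hedge, pt_sub, pt_sub] at hd
      have e1 : ((1, y) : ℤ × ℤ) - cn 1 = (0, y) := by simp [cn]
      have e2 : ((1, y) : ℤ × ℤ) - cn 0 = (1, y) := by simp [cn]
      change xor (colB f a b (f + prj M ((1, y) - cn 0))) (colB f a b (f + prj M ((1, y) - cn 1)))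
        = true at hd
      change f + prj M ((1, y) - cn 0) ∉ X ∧ _ at hr
      rw [e2] at hr
      rw [e1, e2, c4 _ (by omega) (by omega), c5 _ (by omega) (by omega) hr.1] at hd
      simp at hd
    · rcases (wall y (by omega) (by omega)).1 hd with rfl | rfl
      · exact ⟨0, rfl⟩
      · exact ⟨1, rfl⟩
    · rw [dom_hedge, pt_sub, pt_sub] at hd
      have e1 : ((1, y) : ℤ × ℤ) - cn 2 = (0, y - 1) := by simp [cn]
      have e2 : ((1, y) : ℤ × ℤ) - cn 3 = (1, y - 1) := by simp [cn]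
      change xor (colB f a b (f + prj M ((1, y) - cn 2))) (colB f a b (f + prj M ((1, y) - cn 3)))
        = true at hd
      change _ ∧ f + prj M ((1, y) - cn 3) ∉ X at hr
      rw [e2] at hr
      rw [e1, e2, c4 _ (by omega) (by omega), c5 _ (by omega) (by omega) hr.2] at hd
      simp at hd

end ITub

end Vale.Agent.P144Z
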