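import Vale.Agent.P144D.I.T.Defs
import Vale.Agent.P144Z.I2.Part

/-!
Wick's rule for four insertions.
-/

namespace Vale.Agent.P144Z

open Finset Matrix A1 I2

namespace IT

section

variable (g : Geo)

/-- The free functional. -/
noncomputable def Wf : Gr g.S →ₗ[ℝ] ℝ := aug.toLinearMap ∘ₗ OmL g

/-- The field at a half-edge. -/
noncomputable def fld (s : Tor g.M × Fin 4) : Gr g.S := psi (g.ex (Pi.single s 1))

/-- The edge monomial without weight. -/
noncomputable def edg (e : Tor g.M × Fin 2) : g.E :=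
  pp (Pi.single (Sum.inl (e.1, if e.2 = 0 then 0 else 1)) 1)
    (Pi.single (Sum.inl (e.1 + uv g.M e.2, if e.2 = 0 then 2 else 3)) 1)

theorem Wf_eq (F : Gr g.S) : Wf g F = ∑ n : Tor g.M × Fin 2 → Bool, wt g.A tc n *
    aug (gauss (g.exM (gM g.M)) (Ev.val (∏ e, if n e then edg g e else 1) * F)) := by
  have h := E0_exp g tc 1
  rw [E0_one, mul_one] at h
  show aug (OmL g F) = _
  rw [OmL, fn_apply, aug_map, h, map_sum, Finset.sum_mul, map_sum, map_sum]
  refine Finset.sum_congr rfl fun n _ => ?_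
  have e : (∏ e : Tor g.M × Fin 2, if n e then tc • g.edge e.1 e.2 else 1) =
      wt g.A tc n • ∏ e, if n e then edg g e else 1 := by
    rw [wt, ← Finset.prod_smul]
    refine Finset.prod_congr rfl fun e _ => ?_
    split_ifs
    · rw [Geo.edge, smul_smul]
      rfl
    · rw [one_smul]
  rw [Pi.one_apply, one_mul, e, map_smul, smul_mul_assoc, map_smul, map_smul, smul_eq_mul]

theorem Wf_one : Wf g 1 = Zw par0 g.A 1 := by
  have h := val_Om g 1
  rw [Om_one, map_one, map_smul, map_one] at h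
  show aug (OmL g 1) = _
  rw [← h, map_smul, map_one, smul_eq_mul, mul_one]
  rfl

variable {g}

/-- Integration by parts. -/
theorem Wf_fld {s : Tor g.M × Fin 4} {φ : Tor g.M × Fin 4 → ℝ}
    (h : Dm g.A *ᵥ φ = Pi.single s 1) (F : Gr g.S) :
    Wf g (fld g s * F) = Wf g (del (g.ex φ) F) := by
  have h1 := OmL_fld g (-φ) F
  have e1 : (-φ) ᵥ* Dm g.A = Pi.single s 1 := by
    rw [← mulVec_transpose, C.Dm_anti, neg_mulVec_neg, h]
  have e2 : g.ex (-φ) = -g.ex φ := map_neg (exL g) φ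
  rw [e1, e2, del_neg_left, map_neg, neg_neg] at h1
  exact congrArg aug h1

theorem del_fld (φ : Tor g.M × Fin 4 → ℝ) (s : Tor g.M × Fin 4) (F : Gr g.S) :
    del (g.ex φ) (fld g s * F) = φ s • F - fld g s * del (g.ex φ) F := by
  rw [fld, del_psi_mul, ex_dot, ex_inl, single_dotProduct, one_mul]

theorem Wf_two {s : Tor g.M × Fin 4} {φ : Tor g.M × Fin 4 → ℝ}
    (h : Dm g.A *ᵥ φ = Pi.single s 1) (t : Tor g.M × Fin 4) :
    Wf g (fld g s * (fld g t * 1)) = φ t * Zw par0 g.A 1 := by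
  rw [Wf_fld h, del_fld, del_one, mul_zero, sub_zero, map_smul, Wf_one, smul_eq_mul]

theorem Wf_four {s : Fin 4 → Tor g.M × Fin 4} {φ : Fin 4 → Tor g.M × Fin 4 → ℝ}
    (h : ∀ i, Dm g.A *ᵥ φ i = Pi.single (s i) 1) : Wf g (List.ofFn fun i => fld g (s i)).prod =
      (φ 0 (s 1) * φ 2 (s 3) - φ 0 (s 2) * φ 1 (s 3) + φ 0 (s 3) * φ 1 (s 2)) *
        Zw par0 g.A 1 := by
  have e : (List.ofFn fun i => fld g (s i)).prod =
      fld g (s 0) * (fld g (s 1) * (fld g (s 2) * (fld g (s 3) * 1))) := by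
    simp only [List.ofFn_succ, List.ofFn_zero, List.prod_cons, List.prod_nil]
    rfl
  rw [e, Wf_fld (h 0), del_fld, del_fld, del_fld, del_one, mul_zero, sub_zero]
  simp only [mul_sub, mul_smul_comm, map_sub, map_smul, smul_eq_mul, Wf_two (h 1), Wf_two (h 2)]
  ring

end

variable {M : ℕ} [NeZero M]

theorem ZJ_eq (A : Gauge M) {k : ℕ} (s : Fin k → Tor M × Fin 4) :
    ZJ par0 A s 1 1 = Wf (geoA M A) (List.ofFn fun i => fld (geoA M A) (s i)).prod := by
  refine Eq.trans ?_ (Wf_eq (geoA M A) _).symm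
  refine Finset.sum_congr rfl fun n _ => ?_
  simp only [uint_par0, Real.exp_zero, mul_one, Pi.one_apply, prod_const_one]
  rw [mul_comm, cwI, Finset.prod_congr rfl fun e _ => if_congr Iff.rfl (edge0 M e.1 e.2) rfl]
  rfl

theorem ZJ_two {A : Gauge M} {s : Tor M × Fin 4} {φ : Tor M × Fin 4 → ℝ}
    (h : Dm A *ᵥ φ = Pi.single s 1) (t : Tor M × Fin 4) :
    ZJ par0 A ![s, t] 1 1 = φ t * Zw par0 A 1 :=
  (ZJ_eq A _).trans (Wf_two (g := geoA M A) h t)

theorem ZJ_four {A : Gauge M} {s : Fin 4 → Tor M × Fin 4} {φ : Fin 4 → Tor M × Fin 4 → ℝ}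
    (h : ∀ i, Dm A *ᵥ φ i = Pi.single (s i) 1) : ZJ par0 A s 1 1 =
      (φ 0 (s 1) * φ 2 (s 3) - φ 0 (s 2) * φ 1 (s 3) + φ 0 (s 3) * φ 1 (s 2)) * Zw par0 A 1 :=
  (ZJ_eq A s).trans (Wf_four (g := geoA M A) h)

theorem ZJ_zero (A : Gauge M) (s : Fin 0 → Tor M × Fin 4) : ZJ par0 A s 1 1 = Zw par0 A 1 :=
  (ZJ_eq A s).trans (Wf_one (geoA M A))

end IT

open IT

theorem wick4 : Wick4 := by
  intro M _ A s φ n C _ h hb
  rw [ZJ_four h, abs_mul, Fin.prod_univ_four]
  refine mul_le_mul_of_nonneg_right ?_ (abs_nonneg _)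
  have key : ∀ i j k l : Fin 4, i ≠ j → k ≠ l →
      |φ j (s i) * φ l (s k)| ≤ C * n i * n j * (C * n k * n l) := fun i j k l h1 h2 => by
    rw [abs_mul]
    exact mul_le_mul (hb i j h1) (hb k l h2) (abs_nonneg _) ((abs_nonneg _).trans (hb i j h1))
  have h1 := abs_le.1 (key 1 0 3 2 (by decide) (by decide))
  have h2 := abs_le.1 (key 2 0 3 1 (by decide) (by decide))
  have h3 := abs_le.1 (key 3 0 2 1 (by decide) (by decide))
  exact abs_le.2 ⟨by linarith [h1.1, h2.2, h3.1], by linarith [h1.2, h2.1, h3.2]⟩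

end Vale.Agent.P144Z
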