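import Vale.Agent.P144D.I.T.GUp
import Vale.Agent.P144D.I.T.Wick4
import Vale.Agent.P144D.I.T.Fkg
import Vale.Agent.P144D.I.T.Geo

/-!
The upper bound for two short arcs on the left wall of a tube.
-/

namespace Vale.Agent.P144Z

open Finset Matrix IConv ITub

namespace IT

variable {M : ℕ} [NeZero M]

theorem tdist_oth (e : Tor M × Fin 2) : tdist (oth e) e.1 ≤ 1 := GeoA.tdist_sub_uv _ _

omit [NeZero M] in
/-- Two adjacent faces are the faces of an edge. -/
theorem dom_adj (σ : Tor M → Bool) (u : Tor M) (i : Fin 2) : ∃ e : Tor M × Fin 2,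
    e.1 = u + uv M i ∧ oth e = u ∧ dom σ e = xor (σ (u + uv M i)) (σ u) := by
  fin_cases i
  · exact ⟨(u + uv M 0, 1), rfl, add_sub_cancel_right _ _,
      congrArg (fun x => xor (σ (u + uv M 0)) (σ x)) (add_sub_cancel_right _ _)⟩
  · exact ⟨(u + uv M 1, 0), rfl, add_sub_cancel_right _ _,
      congrArg (fun x => xor (σ (u + uv M 1)) (σ x)) (add_sub_cancel_right _ _)⟩

omit [NeZero M] in
/-- Without walls on the removed edges the spins are constant along outer faces. -/
theorem eq_of_outConn {I : Finset (Tor M)} {σ : Tor M → Bool}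
    (h : ∀ e, pwI I e = 0 → dom σ e = false) {u w : Tor M} (huw : OutConn I u w) : σ u = σ w := by
  have key : ∀ (a : Tor M) (i : Fin 2), a ∉ I → a + uv M i ∉ I → σ (a + uv M i) = σ a := by
    intro a i h1 h2
    obtain ⟨e, e1, e2, e3⟩ := dom_adj σ a i
    have h3 := h e (pwI_eq_zero.2 ⟨e1 ▸ h2, e2 ▸ h1⟩)
    rw [e3] at h3
    revert h3
    cases σ (a + uv M i) <;> cases σ a <;> simp
  induction huw with
  | refl => rfl
  | tail _ h2 ih =>
    obtain ⟨h3, h4, i, rfl | rfl⟩ := h2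
    · rw [ih, key _ i h3 h4]
    · rw [ih, key _ i h4 h3]

variable {W : Finset (Tor M)} {T q N : ℕ} {f : Tor M}

/-- The outer faces of a tube are connected to one of the two ends of the row. -/
theorem outConn_ends (h : Tube W T q N f) (hM : 64 * T ≤ M) (hq : 1 ≤ q) {u : Tor M}
    (hu : u ∉ W) : OutConn W u f ∨ OutConn W u (f + prj M (64 * q + 1, 0)) := by
  have h1 : OutConn (W \ row f (64 * q)) u f :=
    h.cor.outConn (fun c => hu (mem_sdiff.1 c).1) fun c => f_out h (mem_sdiff.1 c).1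
  induction h1 using Relation.ReflTransGen.head_induction_on with
  | refl => exact Or.inl Relation.ReflTransGen.refl
  | @head a b h2 _ ih =>
    obtain ⟨h3, h4, i, h5⟩ := h2
    by_cases hb : b ∈ W
    · have key : ∀ e : Tor M × Fin 2, (e.1 = a ∧ oth e = b) ∨ (e.1 = b ∧ oth e = a) →
          a = f ∨ a = f + prj M (64 * q + 1, 0) := by
        intro e he
        have k := row_edge h hM hq (e := e)
          (P := fun g => g ∈ W ∨ g = f ∨ g = f + prj M (64 * q + 1, 0))
          (pwI_eq_zero.2 (by rcases he with ⟨e1, e2⟩ | ⟨e1, e2⟩ <;> rw [e1, e2] <;> tauto))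
          (pwI_eq_one.2 (by rcases he with ⟨e1, e2⟩ | ⟨e1, e2⟩ <;> rw [e1, e2] <;> tauto))
          (fun g hg => Or.inl (row_sub h hg)) (Or.inr (Or.inl rfl)) (Or.inr (Or.inr rfl))
        rcases he with ⟨e1, e2⟩ | ⟨e1, e2⟩ <;> rw [e1, e2] at k <;> tauto
      have h6 : a = f ∨ a = f + prj M (64 * q + 1, 0) := by
        rcases h5 with rfl | rfl
        · obtain ⟨e, e1, e2, -⟩ := dom_adj (fun _ => true) a i
          exact key e (Or.inr ⟨e1, e2⟩)
        · obtain ⟨e, e1, e2, -⟩ := dom_adj (fun _ => true) b i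
          exact key e (Or.inl ⟨e1, e2⟩)
      rcases h6 with h6 | h6
      · exact Or.inl (h6 ▸ Relation.ReflTransGen.refl)
      · exact Or.inr (h6 ▸ Relation.ReflTransGen.refl)
    · exact (ih hb).imp (Relation.ReflTransGen.head ⟨hu, hb, i, h5⟩)
        (Relation.ReflTransGen.head ⟨hu, hb, i, h5⟩)

/-- The configurations without walls on the removed edges fall in four classes. -/
theorem free_le (h : Tube W T q N f) (hM : 64 * T ≤ M) (hq : 1 ≤ q) :
    Zp W (fun σ => ∀ e, pwI W e = 0 → dom σ e = false) ≤ 4 * Zb W fun _ => true := by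
  classical
  let τ : Bool → Bool → Tor M → Bool := fun b b' u => if OutConn W u f then b else b'
  let P : Bool → Bool → (Tor M → Bool) → Prop := fun b b' σ => ∀ u, u ∉ W → σ u = τ b b' u
  have h1 : ∀ σ : Tor M → Bool, (∀ e, pwI W e = 0 → dom σ e = false) →
      P (σ f) (σ (f + prj M (64 * q + 1, 0))) σ := by
    intro σ hσ u hu
    show σ u = if OutConn W u f then _ else _
    split_ifs with c
    · exact eq_of_outConn hσ c
    · exact eq_of_outConn hσ ((outConn_ends h hM hq hu).resolve_left c)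
  have h2 : ∀ b b', Zp W (P b b') ≤ Zb W fun _ => true := fun b b' =>
    (Zb_eq W (τ b b')).symm.trans_le (Zb_le_top W _)
  have h3 := Zp_mono W (Q := fun σ => (P true true σ ∨ P true false σ) ∨
    (P false true σ ∨ P false false σ)) fun σ hσ => by
      have h4 := h1 σ hσ
      revert h4
      cases σ f <;> cases σ (f + prj M (64 * q + 1, 0)) <;> tauto
  have h4 := Zp_or W (fun σ => P true true σ ∨ P true false σ)
    fun σ => P false true σ ∨ P false false σ
  linarith [Zp_or W (P true true) (P true false), Zp_or W (P false true) (P false false),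
    h2 true true, h2 true false, h2 false true, h2 false false]

/-- The boundary layer of a tube. -/
theorem trB_tube (h : Tube W T q N f) (hM : 64 * T ≤ M) (hq : 1 ≤ q) : TrB W 0 M N := by
  obtain ⟨Hs, Vs, h1, h2⟩ := h.cor.tr
  refine ⟨Hs, Vs, fun x hx ⟨⟨g, hg, hgx⟩, g', hg', hgx'⟩ => h1 x hx
    ⟨?_, g', fun c => hg' (mem_sdiff.1 c).1, hgx'⟩, h2⟩
  by_cases hr : g ∈ row f (64 * q)
  swap
  · exact ⟨g, mem_sdiff.2 ⟨hg, hr⟩, hgx⟩
  obtain ⟨i, i1, i2, rfl⟩ := mem_row'.1 hr
  push_cast at i2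
  rw [tdist_comm] at hgx
  obtain ⟨v, rfl, hv⟩ := rep hgx
  rw [zd_le] at hv
  have key : ∀ j : ℤ, j ≠ 0 → -1 ≤ j → j ≤ 1 → j - v.2 ≤ 2 → v.2 - j ≤ 2 →
      ∃ g ∈ W \ row f (64 * q), tdist g (f + prj M v) ≤ 2 := fun j j0 j1 j2 j3 j4 =>
    ⟨f + prj M (i, j), (memU h hM hq (zd_le0.2 (by push_cast; omega))).2 ⟨i1, i2, j0⟩,
      (G.tdist_add_prj_le' f _ _).trans (by simp only at hv ⊢; omega)⟩
  simp only at hv
  rcases le_total 0 v.2 with c | c
  · exact key 1 (by omega) (by omega) (by omega) (by omega) (by omega)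
  · exact key (-1) (by omega) (by omega) (by omega) (by omega) (by omega)

/-- The heights of the four marks. -/
def hgt (q : ℕ) (i : Fin 4) : ℤ := (40 * (i : ℕ) - 60 : ℤ) * q

theorem far_marks (h : Tube W T q N f) (hM : 64 * T ≤ M) {i j : Fin 4} (hij : i ≠ j) :
    40 * q ≤ tdist (colS f (hgt q i)).1 (colS f (hgt q j)).1 := by
  have hT := h.q_le
  have key : 40 * q ≤ zd (1, hgt q i) (1, hgt q j) ∧ zd (1, hgt q i) (1, hgt q j) ≤ 120 * q := by
    fin_cases i <;> fin_cases j <;> first | exact absurd rfl hij | (simp only [zd, hgt]; omega)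
  show _ ≤ tdist (f + prj M _) (f + prj M _)
  rw [tdist_pt f (by omega)]
  exact key.1

theorem mkTau_four (h : Tube W T q N f) (hM : 64 * T ≤ M) (hq : 1 ≤ q) :
    MkTau W (colB f (-(60 * q)) (-(20 * q)) ⊓ colB f (20 * q) (60 * q))
      fun i => colS f (hgt q i) := by
  have hT := h.q_le
  have hin : ∀ j : ℤ, -j ≤ 100 * q → j ≤ 100 * q → f + prj M (1, j) ∈ W := fun j j1 j2 =>
    (h.loc _ (zd_le0.2 (by push_cast; omega))).2 (by simp only; omega)
  have m1 := mkTau_col h hM hq (Subset.refl W) (a := -(60 * q)) (b := -(20 * q)) (by omega)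
    (by omega) (by omega) fun j _ _ => hin j (by omega) (by omega)
  have m2 := mkTau_col h hM hq (Subset.refl W) (a := 20 * q) (b := 60 * q) (by omega)
    (by omega) (by omega) fun j _ _ => hin j (by omega) (by omega)
  have e0 : hgt q 0 = -(60 * q) := by simp [hgt]
  have e1 : hgt q 1 = -(20 * q) := by simp [hgt]
  have e2 : hgt q 2 = 20 * q := by simp [hgt]
  have e3 : hgt q 3 = 60 * q := by simp [hgt]
  have sep : ∀ u u', tdist u u' ≤ 1 → colB f (-(60 * q)) (-(20 * q)) u = true ∨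
      colB f (20 * q) (60 * q) u' = true := by
    intro u u' huu
    by_contra hc
    rw [not_or, Bool.not_eq_true, Bool.not_eq_true] at hc
    obtain ⟨j, j1, j2, rfl⟩ := colB_false.1 hc.1
    obtain ⟨j', j3, j4, rfl⟩ := colB_false.1 hc.2
    rw [tdist_pt f (by simp only [zd]; omega), zd_le] at huu
    simp only at huu
    omega
  have hdom : ∀ e, dom (colB f (-(60 * q)) (-(20 * q)) ⊓ colB f (20 * q) (60 * q)) e = true ↔
      dom (colB f (-(60 * q)) (-(20 * q))) e = true ∨ dom (colB f (20 * q) (60 * q)) e = true := by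
    intro e
    have s1 := sep e.1 e.1 (by rw [tdist_self]; exact zero_le_one)
    have s2 := sep (oth e) (oth e) (by rw [tdist_self]; exact zero_le_one)
    have s3 := sep (oth e) e.1 (tdist_oth e)
    have s4 := sep e.1 (oth e) (tdist_comm e.1 _ ▸ tdist_oth e)
    show xor (colB f _ _ e.1 ⊓ colB f _ _ e.1) (colB f _ _ (oth e) ⊓ colB f _ _ (oth e)) = true ↔
      xor (colB f _ _ e.1) (colB f _ _ (oth e)) = true ∨
        xor (colB f _ _ e.1) (colB f _ _ (oth e)) = true
    revert s1 s2 s3 s4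
    cases colB f (-(60 * q)) (-(20 * q)) e.1 <;> cases colB f (-(60 * q)) (-(20 * q)) (oth e) <;>
      cases colB f (20 * q) (60 * q) e.1 <;> cases colB f (20 * q) (60 * q) (oth e) <;> simp
  refine ⟨fun i j hij => by_contra fun c => ?_, fun i => ?_, fun x a h1 h2 => ?_⟩
  · have k := far_marks h hM c
    rw [show (colS f (hgt q i)).1 = (colS f (hgt q j)).1 from hij, tdist_self] at k
    omega
  · fin_cases i
    · exact e0 ▸ m1.mk1 1
    · exact e1 ▸ m1.mk1 0
    · exact e2 ▸ m2.mk1 1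
    · exact e3 ▸ m2.mk1 0
  · rw [hdom, m1.wall x a h1 h2, m2.wall x a h1 h2]
    simp only [Fin.exists_fin_succ, IsEmpty.exists_iff, or_false]
    show (colS f _ = _ ∨ colS f _ = _) ∨ (colS f _ = _ ∨ colS f _ = _) ↔
      colS f (hgt q 0) = _ ∨ colS f (hgt q 1) = _ ∨ colS f (hgt q 2) = _ ∨ colS f (hgt q 3) = _
    rw [e0, e1, e2, e3]
    tauto

/-- The right side of `SecA0`. -/
theorem sec_eq (hA : SecA0) {I : Finset (Tor M)} {T k : ℕ} {s : Fin k → Tor M × Fin 4}
    {τ : Tor M → Bool} (hI : ∀ g ∈ I, tdist g 0 ≤ T) (hM : 4 * (T + 2) ≤ M) (h : MkTau I τ s) :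
    2 * |ZJ par0 (pwI I) s 1 1| = Zp I fun σ => ∀ e, pwI I e = 0 → dom σ e = dom τ e := by
  refine (hA M I T k s τ hI hM h).2.trans (sum_congr rfl fun σ _ => ?_)
  split_ifs <;> rfl

end IT

open IT

theorem up4_of (hA : SecA0) (hG : GapU) : Up4 := by
  obtain ⟨C, hC, hG⟩ := hG
  intro N
  refine ⟨12 * (C * (N + 1) * N) ^ 2 + 1, by positivity, ?_⟩
  intro M _ W T q ℓ f ν h hM hℓ hq hT hν hd
  have hq1 : 1 ≤ q := hℓ.trans hq
  have hTq := h.q_le
  have hbox := boxW h hM hq1
  have hgap : ∀ ψ, ψ ⬝ᵥ ψ ≤ (C * (N + 1) * N * ℓ) ^ 2 *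
      ((Dm (pwI W) *ᵥ ψ) ⬝ᵥ (Dm (pwI W) *ᵥ ψ)) := fun ψ => by
    refine (hG M W T N (by omega) (by omega) hbox (trB_tube h hM hq1) ψ).trans
      (mul_le_mul_of_nonneg_right ?_ (sum_nonneg fun _ _ => mul_self_nonneg _))
    have h1 : (T : ℝ) ≤ N * ℓ := by exact_mod_cast hT
    rw [mul_assoc (C * (N + 1))]
    gcongr
  have hinj := inj_of_gap hgap
  choose φ hφ using fun i : Fin 4 => exists_sol hinj (Pi.single (colS f (hgt q i)) 1)
  have h1 := wick4 M (pwI W) (fun i => colS f (hgt q i)) φ ν (C * (N + 1) * N) hinj hφ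
    fun i j hij => (gUp M (pwI W) ℓ (colS f (hgt q i)) (colS f (hgt q j)) (ν i) (ν j)
      (C * (N + 1) * N) (φ j) hℓ (hν i) (hν j) (by positivity) (hd i) (hd j)
      (by have := far_marks h hM hij; omega) hgap (hφ j)).2
  have h2 := sec_eq hA hbox (by omega) (mkTau_four h hM hq1)
  have h3 := sec_eq hA hbox (by omega) (τ := fun _ => true) (s := Fin.elim0)
    ⟨fun i => i.elim0, fun i => i.elim0, fun x a _ _ =>
      ⟨fun c => absurd c Bool.false_ne_true, fun ⟨i, _⟩ => i.elim0⟩⟩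
  rw [ZJ_zero] at h3
  have h4 : 2 * |Zw par0 (pwI W) 1| ≤ 4 * Zb W fun _ => true := h3.trans_le (free_le h hM hq1)
  have h5 : Zb W (colB f (-(60 * q)) (-(20 * q)) ⊓ colB f (20 * q) (60 * q)) ≤
      2 * |ZJ par0 (pwI W) (fun i => colS f (hgt q i)) 1 1| := by
    rw [h2, Zb_eq]
    refine Zp_mono W fun σ hσ e he => ?_
    have h6 := pwI_eq_zero.1 he
    show xor (σ e.1) (σ (oth e)) = _
    rw [hσ _ h6.1, hσ _ h6.2]
    rfl
  have h6 : 0 ≤ ∏ i, ν i := prod_nonneg fun i _ => hν i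
  have h7 := Zb_nonneg W fun _ => true
  have h8 := mul_le_mul_of_nonneg_left h4
    (by positivity : 0 ≤ 3 * (C * (N + 1) * N) ^ 2 * ∏ i, ν i)
  nlinarith [mul_nonneg h6 h7]

end Vale.Agent.P144Z
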