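import Vale.Agent.P144D.I.T.Main
import Vale.Agent.P144D.I.T.Up
import Vale.Agent.P144D.I.SecA.Sum
import Vale.Agent.P144D.I.Gks.Gap
import Vale.Agent.P144D.I.Gks.Wick

/-!
The tube statement from the statements on marked half-edges.
-/

namespace Vale.Agent.P144Z

open Finset Matrix ISecA

theorem secA0 : SecA0 := by
  classical
  intro M _ I T k s τ hI hM hτ
  obtain ⟨κ, hκ, h1⟩ := key I τ s (fun i j h => hτ.inj (congrArg Prod.fst h))
    (fun i => (hτ.mk1 i).1) (by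
      rintro ⟨x, a⟩ hx
      simp only [gm, Bool.and_eq_true, Bool.not_eq_true', decide_eq_false_iff_not]
      constructor
      · rintro ⟨h2, h3⟩
        obtain ⟨i, hi⟩ := (hτ.wall x a hx (pwI_neg h3)).1 h2
        exact ⟨i, hi.symm⟩
      · rintro ⟨i, hi⟩
        have h2 := (hτ.mk1 i).2
        rw [← hi] at h2
        exact ⟨(hτ.wall x a hx h2).2 ⟨i, hi.symm⟩, not_or.2 (IConv.pwI_eq_zero.1 h2)⟩)
  have hsec : ∀ θ (e : Tor M × Fin 2), e.1 ∈ I ∨ oth e ∈ I → sec M θ e = 1 := fun θ e he => by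
    have h2 : sec M θ e * pwI I e = pwI I e :=
      congrFun (ILB.sec_mul hI hM (fun e => ILB.pw_ne.1) θ) e
    rwa [pwI_pos he, mul_one] at h2
  refine ⟨dgr_iff hτ.inj ?_, ?_⟩
  · rw [h1 _ fun e => nOf_pr, xor_gm, I1.cw_dom, mul_one]
    exact fun h => zero_ne_one (by rw [← hκ, h, abs_zero])
  · have h2 := ZJ_eq I τ hsec s h1 par0 (G := 1) (fun _ => Or.inl rfl) 1 1
    have h3 : ∀ σ : Tor M → Bool, (wt 1 1 (gm I τ) * wt 1 1 (dom σ) *
        if Ag I τ σ then wJ par0 I (1 : Fin k → _) σ *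
          (1 : (Tor M × Fin 2 → Bool) → ℝ) (nOf I σ) else 0) =
        if ∀ e, pwI I e = 0 → dom σ e = dom τ e then wt (pwI I) tc (nOf I σ) else 0 := by
      intro σ
      rw [I1.wt_one, I1.wt_one, one_mul, one_mul]
      refine if_congr (forall_congr' fun e => ?_) (by simp [wJ, uint, par0]) rfl
      rw [IConv.pwI_eq_zero, not_or]
    rw [mul_one, sum_congr rfl fun σ _ => h3 σ] at h2
    rw [h2, abs_mul, abs_div, hκ, abs_two, ← mul_assoc, mul_one_div_cancel two_ne_zero, one_mul]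
    refine abs_of_nonneg (sum_nonneg fun σ _ => ?_)
    split_ifs
    exacts [IT.mu_nonneg I σ, le_rfl]

theorem tubeStmt_of2 (hK : MkStmt) (hT : TwoPt2) : TubeStmt :=
  tubeStmt_of fkgStmt secA0 cwStmt wickStmt gapU hK hT (up4_of secA0 gapU)

end Vale.Agent.P144Z
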