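import Vale.Agent.P144D.I.DefsN

/-!
The statements used for the tube: partition functions with fixed outer spins.
-/

namespace Vale.Agent.P144Z

open Finset Matrix

section

variable {M : ℕ} [NeZero M]

open Classical in
/-- The partition function of the faces `I` with outer spins `τ`. -/
noncomputable def Zb (I : Finset (Tor M)) (τ : Tor M → Bool) : ℝ :=
  ∑ σ : Tor M → Bool, if ∀ u, u ∉ I → σ u = τ u then wt (pwI I) tc (nOf I σ) else 0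

/-- The walls of `τ` reach `I` exactly at the half-edges `s i`. -/
structure MkTau (I : Finset (Tor M)) (τ : Tor M → Bool) {k : ℕ} (s : Fin k → Tor M × Fin 4) :
    Prop where
  inj : Function.Injective fun i => (s i).1
  mk1 : ∀ i, TouchT I (s i).1 ∧ pwI I (hedge (s i)) = 0
  wall : ∀ x a, TouchT I x → pwI I (hedge (x, a)) = 0 →
    (dom τ (hedge (x, a)) = true ↔ ∃ i, s i = (x, a))

end

/-- The inequalities of Fortuin, Kasteleyn and Ginibre. -/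
def FkgStmt : Prop :=
  ∀ (M : ℕ) [NeZero M] (I : Finset (Tor M)),
    (∀ τ τ', Zb I τ * Zb I τ' ≤ Zb I (τ ⊓ τ') * Zb I (τ ⊔ τ')) ∧
    ∀ U ⊆ I, ∀ τ : Tor M → Bool, (∀ u ∈ I, u ∉ U → τ u = true) →
      (∀ e, pwI U e = 0 → pwI I e = 1 → dom τ e = false) →
        Zb U τ * Zb I (fun _ => true) ≤ Zb I τ * Zb U fun _ => true

open Classical in
/-- Contours with insertions are the walls of the spins with given walls on the removed edges. -/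
def SecA0 : Prop :=
  ∀ (M : ℕ) [NeZero M] (I : Finset (Tor M)) (T k : ℕ) (s : Fin k → Tor M × Fin 4)
    (τ : Tor M → Bool), (∀ f ∈ I, tdist f 0 ≤ T) → 4 * (T + 2) ≤ M → MkTau I τ s →
    (∀ x, dgr (nOf I τ) x = -1 ↔ ∃ i, x = (s i).1) ∧
      2 * |ZJ par0 (pwI I) s 1 1| = ∑ σ : Tor M → Bool,
        if ∀ e, pwI I e = 0 → dom σ e = dom τ e then wt (pwI I) tc (nOf I σ) else 0

/-- Four insertions. -/
def Wick4 : Prop :=
  ∀ (M : ℕ) [NeZero M] (A : Gauge M) (s : Fin 4 → Tor M × Fin 4)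
    (φ : Fin 4 → Tor M × Fin 4 → ℝ) (n : Fin 4 → ℝ) (C : ℝ), (∀ ψ, Dm A *ᵥ ψ = 0 → ψ = 0) →
    (∀ i, Dm A *ᵥ φ i = Pi.single (s i) 1) → (∀ i j, i ≠ j → |φ j (s i)| ≤ C * n i * n j) →
      |ZJ par0 A s 1 1| ≤ 3 * C ^ 2 * (∏ i, n i) * |Zw par0 A 1|

/-- The upper bound on the Green function. -/
def GUp : Prop :=
  ∀ (M : ℕ) [NeZero M] (A : Gauge M) (ℓ : ℕ) (s s' : Tor M × Fin 4) (ν ν' Γ : ℝ)
    (φ : Tor M × Fin 4 → ℝ), 1 ≤ ℓ → 0 ≤ ν → 0 ≤ ν' → 0 ≤ Γ → Dom A ℓ s.1 (Pi.single s 1) ν →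
    Dom A ℓ s'.1 (Pi.single s' 1) ν' → 4 * ℓ + 8 < tdist s.1 s'.1 →
    (∀ ψ, ψ ⬝ᵥ ψ ≤ (Γ * ℓ) ^ 2 * ((Dm A *ᵥ ψ) ⬝ᵥ (Dm A *ᵥ ψ))) → Dm A *ᵥ φ = Pi.single s' 1 →
      l2sq (ball s.1 (2 * ℓ)) φ ≤ (Γ * ν') ^ 2 * ℓ ∧ |φ s| ≤ Γ * ν * ν'

/-- The column of outer faces of the tube between the heights `a` and `b`: the spins are minus
there and plus elsewhere. -/
noncomputable def colB {M : ℕ} (f : Tor M) (a b : ℤ) (u : Tor M) : Bool :=
  !decide (u ∈ (Finset.Ico a b).image fun j : ℤ => f + prj M (0, j))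

/-- The half-edge that leaves the left wall of the tube at the height `a`. -/
def colS {M : ℕ} (f : Tor M) (a : ℤ) : Tor M × Fin 4 := (f + prj M (1, a), 2)

/-- The upper bound for two short arcs on the left wall of a tube. -/
def Up4 : Prop :=
  ∀ N : ℕ, ∃ C > (0 : ℝ), ∀ (M : ℕ) [NeZero M] (W : Finset (Tor M)) (T q ℓ : ℕ) (f : Tor M)
    (ν : Fin 4 → ℝ), Tube W T q N f → 64 * T ≤ M → 1 ≤ ℓ → ℓ ≤ q → T ≤ N * ℓ → (∀ i, 0 ≤ ν i) →
    (∀ i : Fin 4, Dom (pwI W) ℓ (colS f ((40 * (i : ℕ) - 60 : ℤ) * q)).1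
      (Pi.single (colS f ((40 * (i : ℕ) - 60 : ℤ) * q)) 1) (ν i)) →
      Zb W (colB f (-(60 * q)) (-(20 * q)) ⊓ colB f (20 * q) (60 * q)) ≤
        C * (∏ i, ν i) * Zb W fun _ => true

end Vale.Agent.P144Z
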