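import Vale.Agent.P144D.I.T.Defs
import Vale.Agent.P144Z.E4.Smooth
import Vale.Agent.P144Z.E1.Easy

/-!
The upper bound on the Green function by duality.
-/

namespace Vale.Agent.P144Z

open Finset Matrix

namespace IT

variable {M : ℕ} [NeZero M]

theorem dot_anti (A : Gauge M) (ψ φ : Tor M × Fin 4 → ℝ) :
    (Dm A *ᵥ ψ) ⬝ᵥ φ = -(ψ ⬝ᵥ (Dm A *ᵥ φ)) := by
  rw [dotProduct_mulVec, ← mulVec_transpose, E1.Dm_anti, neg_mulVec, neg_dotProduct, neg_neg]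

/-- An injective operator is surjective. -/
theorem exists_sol {A : Gauge M} (h : ∀ ψ, Dm A *ᵥ ψ = 0 → ψ = 0) (g : Tor M × Fin 4 → ℝ) :
    ∃ ψ, Dm A *ᵥ ψ = g := by
  have h1 : Function.Injective (Dm A).mulVec := fun a b hab =>
    sub_eq_zero.1 (h _ (by rw [mulVec_sub, hab, sub_self]))
  exact mulVec_surjective_iff_isUnit.2 (mulVec_injective_iff_isUnit.1 h1) g

/-- The gap gives injectivity. -/
theorem inj_of_gap {A : Gauge M} {c : ℝ}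
    (h : ∀ ψ, ψ ⬝ᵥ ψ ≤ c * ((Dm A *ᵥ ψ) ⬝ᵥ (Dm A *ᵥ ψ))) (ψ : Tor M × Fin 4 → ℝ)
    (h0 : Dm A *ᵥ ψ = 0) : ψ = 0 := by
  have h1 := h ψ
  rw [h0, zero_dotProduct, mul_zero] at h1
  exact dotProduct_self_eq_zero.1 (le_antisymm h1 (sum_nonneg fun _ _ => mul_self_nonneg _))

/-- The value of a homogeneous solution at a half-edge of size `ν`. -/
theorem dom_hom {A : Gauge M} {ℓ : ℕ} {s : Tor M × Fin 4} {ν : ℝ}
    (hd : Dom A ℓ s.1 (Pi.single s 1) ν) {g : Tor M × Fin 4 → ℝ}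
    (h : ∀ t : Tor M × Fin 4, tdist t.1 s.1 ≤ 2 * ℓ + 3 → (Dm A *ᵥ g) t = 0) :
    g s ^ 2 * ℓ ≤ ν ^ 2 * l2sq (ball s.1 (2 * ℓ)) g := by
  have h1 := hd g
  rwa [E4.hsq_of_D A _ h, single_dotProduct, one_mul] at h1

/-- The mass of the Green function on a set away from the source. -/
theorem mass_le {A : Gauge M} {ℓ : ℕ} {s' : Tor M × Fin 4} {ν' c : ℝ}
    (hd : Dom A ℓ s'.1 (Pi.single s' 1) ν')
    (hg : ∀ ψ, ψ ⬝ᵥ ψ ≤ c ^ 2 * ((Dm A *ᵥ ψ) ⬝ᵥ (Dm A *ᵥ ψ))) {φ : Tor M × Fin 4 → ℝ}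
    (hφ : Dm A *ᵥ φ = Pi.single s' 1) (B : Finset (Tor M))
    (hB : ∀ x ∈ B, 2 * ℓ + 3 < tdist x s'.1) : l2sq B φ * ℓ ≤ (c * ν') ^ 2 := by
  obtain ⟨g, hg'⟩ : ∃ g : Tor M × Fin 4 → ℝ, ∀ t, g t = if t.1 ∈ B then φ t else 0 :=
    ⟨_, fun _ => rfl⟩
  obtain ⟨ψ, hψ⟩ := exists_sol (inj_of_gap hg) g
  have e1 : g ⬝ᵥ φ = l2sq B φ := by
    rw [dotProduct, Fintype.sum_prod_type, l2sq, ← sum_subset (subset_univ B)]
    · exact sum_congr rfl fun x hx => sum_congr rfl fun a _ => by rw [hg', if_pos hx, sq]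
    · exact fun x _ hx => sum_eq_zero fun a _ => by rw [hg', if_neg hx, zero_mul]
  have e2 : g ⬝ᵥ g = l2sq B φ := by
    rw [← e1]
    refine sum_congr rfl fun t _ => ?_
    rw [hg']
    split_ifs <;> simp
  have e3 : ψ s' = -l2sq B φ := by
    rw [← e1, ← hψ, dot_anti, hφ, dotProduct_single, mul_one, neg_neg]
  have h1 := dom_hom hd (g := ψ) fun t ht => by
    rw [hψ, hg', if_neg fun h => by have := hB _ h; omega]
  have h2 : l2sq (ball s'.1 (2 * ℓ)) ψ ≤ c ^ 2 * l2sq B φ := by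
    refine (E4.l2sq_mono (subset_univ _) ψ).trans ?_
    rw [E4.l2sq_univ, ← e2, ← hψ]
    exact hg ψ
  have h3 := E4.l2sq_nonneg B φ
  rw [e3, neg_sq] at h1
  rcases h3.eq_or_lt with h | h
  · rw [← h, zero_mul]
    positivity
  · refine le_of_mul_le_mul_left ?_ h
    have := mul_le_mul_of_nonneg_left h2 (sq_nonneg ν')
    nlinarith

end IT

open IT

theorem gUp : GUp := by
  intro M _ A ℓ s s' ν ν' Γ φ hℓ hν hν' hΓ hd hd' hss hg hφ
  have hl : (0 : ℝ) < ℓ := by exact_mod_cast hℓ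
  have h1 := mass_le hd' hg hφ (ball s.1 (2 * ℓ)) fun x hx => by
    have h2 := E4.mem_ball.1 hx
    have h3 := tdist_triangle s.1 x s'.1
    rw [tdist_comm s.1 x] at h3
    omega
  have h2 : l2sq (ball s.1 (2 * ℓ)) φ ≤ (Γ * ν') ^ 2 * ℓ := by
    refine le_of_mul_le_mul_right (h1.trans (le_of_eq ?_)) hl
    ring
  refine ⟨h2, ?_⟩
  have h3 := dom_hom hd (g := φ) fun t ht => by
    rw [hφ, Pi.single_eq_of_ne]
    rintro rfl
    rw [tdist_comm] at ht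
    omega
  refine abs_le_of_sq_le_sq' ?_ (by positivity) |> abs_le.2
  refine le_of_mul_le_mul_right (h3.trans ?_) hl
  refine (mul_le_mul_of_nonneg_left h2 (sq_nonneg ν)).trans (le_of_eq ?_)
  ring

end Vale.Agent.P144Z
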