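import Vale.Agent.P144D.I.T.Rect
import Vale.Agent.P144D.I.T.Fkg
import Vale.Agent.P144D.I.T.GUp
import Vale.Agent.P144D.I.LB.C

/-!
Lower bounds for the partition functions with one arc of the opposite sign.
-/

namespace Vale.Agent.P144Z

open Finset Matrix IConv IT

namespace ITub

variable {M : ℕ} [NeZero M]

open Classical in
theorem wt_dom (I : Finset (Tor M)) (σ : Tor M → Bool) :
    wt (pwI I) tc (dom σ) = if DH1.Cst I σ then mu I σ else 0 := by
  split_ifs with h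
  · refine congrArg _ (funext fun e => ?_)
    by_cases h1 : e.1 ∈ I ∨ oth e ∈ I
    · simp [nOf, h1]
    · rw [not_or] at h1
      simp [nOf, DH1.dom_eq_false.2 (h e h1.1 h1.2)]
  · exact (DH1.wt_pw_plus I tc σ).trans (if_neg h)

theorem Zw_Zp {I : Finset (Tor M)} {T : ℕ} (hI : ∀ f ∈ I, tdist f 0 ≤ T)
    (hM : 4 * (T + 2) ≤ M) : Zw par0 (pwI I) 1 = 1 / 2 * Zp I (DH1.Cst I) := by
  rw [ILB.Zw_eq hI hM fun e => ILB.pw_ne.1]
  simp only [ILB.wt_smul, wt_dom]
  rfl

theorem Zb_pos (I : Finset (Tor M)) : 0 < Zb I fun _ => true := by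
  classical
  rw [Zb_eq]
  refine lt_of_lt_of_le ?_ (single_le_sum
    (fun σ _ => ite_nonneg I (fun σ => ∀ u, u ∉ I → σ u = true) σ) (mem_univ fun _ => true))
  rw [if_pos fun _ _ => rfl, mu_eq]
  simp

theorem Zb_le_Zw {I : Finset (Tor M)} {T : ℕ} (hI : ∀ f ∈ I, tdist f 0 ≤ T)
    (hM : 4 * (T + 2) ≤ M) : (Zb I fun _ => true) ≤ 2 * Zw par0 (pwI I) 1 := by
  rw [Zw_Zp hI hM, ← mul_assoc, mul_one_div_cancel two_ne_zero, one_mul, Zb_eq]
  exact Zp_mono I fun σ h e h1 h2 => (h _ h1).trans (h _ h2).symm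

theorem Zp_le_two {I : Finset (Tor M)} {P : (Tor M → Bool) → Prop} {τ : Tor M → Bool}
    (h : ∀ σ, P σ → ∀ u v, u ∉ I → v ∉ I → xor (σ u) (τ u) = xor (σ v) (τ v)) :
    Zp I P ≤ 2 * Zb I τ := by
  rw [two_mul]
  nth_rewrite 2 [← Zb_not]
  rw [Zb_eq, Zb_eq]
  refine le_trans (Zp_mono I fun σ hσ => ?_) (Zp_or I _ _)
  by_cases h1 : ∀ u, u ∉ I → σ u = τ u
  · exact Or.inl h1
  · push Not at h1
    obtain ⟨v, v1, v2⟩ := h1
    refine Or.inr fun u hu => ?_
    have := h σ hσ u v hu v1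
    revert this v2
    cases σ u <;> cases τ u <;> cases σ v <;> cases τ v <;> simp

variable {X W : Finset (Tor M)} {T : ℕ}

/-- One arc of the opposite sign. -/
theorem low (hF : FkgStmt) (hS : SecA0) (hW : WickStmt) (hX : X ⊆ W)
    (hb : ∀ f ∈ X, tdist f 0 ≤ T) (hc : ConnB X 0 (T + 1) (T + 1)) (hM : 4 * (T + 2) ≤ M)
    (hD : ∀ ψ, Dm (pwI X) *ᵥ ψ = 0 → ψ = 0) {s s' : Tor M × Fin 4} {τ : Tor M → Bool}
    (hτ : MkTau X τ ![s, s']) (h1 : ∀ u ∈ W, τ u = true)
    (h2 : ∀ e, pwI X e = 0 → pwI W e = 1 → dom τ e = false) {c : ℝ} (hc0 : 0 ≤ c)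
    (hφ : ∀ φ, Dm (pwI X) *ᵥ φ = Pi.single s' 1 → c ≤ |φ s|) :
    c / 2 * Zb W (fun _ => true) ≤ Zb W τ := by
  classical
  obtain ⟨φ, h3⟩ := exists_sol hD (Pi.single s' 1)
  have h4 := hW M _ s s' φ hD h3
  have h5 := Zb_le_Zw hb hM
  have h6 := Zb_pos X
  have h7 : 2 * |ZJ par0 (pwI X) ![s, s'] 1 1| ≤ 2 * Zb X τ := by
    rw [(hS M X T 2 _ τ hb hM hτ).2]
    refine le_trans (le_of_eq ?_) (Zp_le_two (P := fun σ => ∀ e, pwI X e = 0 → dom σ e = dom τ e)
      fun σ hσ u v hu hv => ?_)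
    · refine sum_congr rfl fun σ _ => ?_
      split_ifs <;> rfl
    · refine ILB.cst_const hb hc (σ := fun u => xor (σ u) (τ u)) (fun e e1 e2 => ?_) hu hv
      refine (DH1.dom_eq_false (σ := fun u => xor (σ u) (τ u))).1 ?_
      rw [ILB.dom_xor, hσ e (pwI_eq_zero.2 ⟨e1, e2⟩), Bool.xor_self]
  have h8 : c / 2 * Zb X (fun _ => true) ≤ Zb X τ := by
    rw [h4, abs_of_pos (by linarith : 0 < Zw par0 (pwI X) 1)] at h7
    nlinarith [hφ φ h3]
  have h9 := (hF M W).2 X hX τ (fun u hu _ => h1 u hu) h2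
  refine le_of_mul_le_mul_right (le_trans ?_ h9) h6
  nlinarith [Zb_nonneg W fun _ => true]

/-- A contour between two half-edges with a nonzero Green function. -/
theorem exists_path (hC : CwStmt) (hW : WickStmt) (hb : ∀ f ∈ X, tdist f 0 ≤ T)
    (hM : 4 * (T + 2) ≤ M) (hD : ∀ ψ, Dm (pwI X) *ᵥ ψ = 0 → ψ = 0) {s s' : Tor M × Fin 4}
    (hs : Function.Injective fun i => (![s, s'] i).1) {c : ℝ} (hc0 : 0 < c)
    (hφ : ∀ φ, Dm (pwI X) *ᵥ φ = Pi.single s' 1 → c ≤ |φ s|) :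
    ∃ n, ILB.Pr X n ∧ ∀ x, dgr n x = -1 ↔ ∃ i, x = (![s, s'] i).1 := by
  obtain ⟨φ, h3⟩ := exists_sol hD (Pi.single s' 1)
  have h4 := hW M _ s s' φ hD h3
  have h5 := Zb_le_Zw hb hM
  have h6 := Zb_pos X
  have h7 : ZJ par0 (pwI X) ![s, s'] 1 1 ≠ 0 := by
    rw [← abs_pos, h4]
    exact mul_pos (hc0.trans_le (hφ φ h3)) (abs_pos.2 (by linarith : 0 < Zw par0 (pwI X) 1).ne')
  obtain ⟨n, -, h8⟩ := exists_ne_zero_of_sum_ne_zero h7
  have h9 := left_ne_zero_of_mul (left_ne_zero_of_mul (left_ne_zero_of_mul h8))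
  exact ⟨n, fun e he => ILB.pw_one.2 (ILB.pw_ne.1 (ILB.ne_of_wt (right_ne_zero_of_mul h9) he)),
    (hC M 2 _ n hs).2 (left_ne_zero_of_mul h9)⟩

variable {q N : ℕ} {f : Tor M}

omit [NeZero M] in
theorem col_f (f : Tor M) {a b : ℤ} (ha : a ≤ 0) (hb : 0 < b) : colB f a b f = false :=
  colB_false.2 ⟨0, ha, hb, (pt_zero f).symm⟩

omit [NeZero M] in
theorem col_in (h : Tube W T q N f) {a b : ℤ} (ha : -a ≤ 128 * q) (hb : b ≤ 128 * q) {u : Tor M}
    (hu : u ∈ W) : colB f a b u = true :=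
  eq_true_of_ne_false fun c => by
    obtain ⟨j, j1, j2, rfl⟩ := colB_false.1 c
    exact col_out h (by omega) (by omega) hu

omit [NeZero M] in
theorem col_conn (h : Tube W T q N f) {j : ℤ} (h1 : -j ≤ 128 * q) (h2 : j ≤ 128 * q) :
    OutConn W f (f + prj M (0, j)) := by
  have up : ∀ n : ℕ, (n : ℤ) ≤ 128 * q → OutConn W f (f + prj M (0, n)) ∧
      OutConn W f (f + prj M (0, -n)) := by
    intro n
    induction n with
    | zero =>
      simp only [Nat.cast_zero, neg_zero, pt_zero]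
      exact fun _ => ⟨Relation.ReflTransGen.refl, Relation.ReflTransGen.refl⟩
    | succ n ih =>
      intro hn
      push_cast at hn ⊢
      obtain ⟨a, b⟩ := ih (by omega)
      refine ⟨a.tail ⟨col_out h (by omega) (by omega), col_out h (by omega) (by omega), 1,
        Or.inl ?_⟩, b.tail ⟨col_out h (by omega) (by omega), col_out h (by omega) (by omega), 1,
        Or.inr ?_⟩⟩ <;> rw [G.uv_one, pt_add] <;> simp
  rcases le_total 0 j with h3 | h3
  · simpa [Int.toNat_of_nonneg h3] using (up j.toNat (by omega)).1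
  · have := (up (-j).toNat (by omega)).2
    rwa [Int.toNat_of_nonneg (by omega), neg_neg] at this

/-- The two walls of the tube are not connected. -/
theorem not_conn (hS : SecA0) (h : Tube W T q N f) (hM : 64 * T ≤ M) (hq : 1 ≤ q)
    {n : Tor M × Fin 2 → Bool} (h1 : ILB.Pr (W \ row f (64 * q)) n)
    (h2 : ∀ x, dgr n x = -1 ↔ ∃ i, x = (![colS f (20 * q), colS f (-(20 * q))] i).1) :
    ¬ OutConn W f (f + prj M (64 * q + 1, 0)) := by
  intro hc
  have hT := h.q_le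
  have h3 := (hS M W T 2 _ _ (boxW h hM hq) (by omega) (mkTau_col h hM hq Subset.rfl
    (a := -(20 * q)) (b := 20 * q) (by omega) (by omega) (by omega) fun j j1 j2 => by
      rw [h.loc _ (zd_le0.2 (by push_cast; omega))]
      simp only
      omega)).1
  obtain ⟨τ, h4⟩ := ILB.exists_dom (boxW h hM hq) (by omega)
    (n := fun e => xor (n e) (nOf W (colB f (-(20 * q)) (20 * q)) e))
    (ILB.even_of fun x => by rw [Ne, ILB.dgr_xor_iff, h2, h3]; simp)
    ((h1.mono sdiff_subset).xor fun e he => ILB.pw_one.2 (by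
      simp only [nOf, Bool.and_eq_true, decide_eq_true_eq] at he
      exact he.2))
  have h5 : ILB.Pr W (dom τ) := by
    rw [h4]
    exact (h1.mono sdiff_subset).xor fun e he => ILB.pw_one.2 (by
      simp only [nOf, Bool.and_eq_true, decide_eq_true_eq] at he
      exact he.2)
  have h6 := prod_cut τ f (m := 64 * q) (by omega)
  have h7 := prod_cut (colB f (-(20 * q)) (20 * q)) f (m := 64 * q) (by omega)
  push_cast at h6 h7
  rw [← h5.cst.conn hc, I1.sgn_mul_self] at h6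
  have h8 : colB f (-(20 * q)) (20 * q) (f + prj M (64 * q + 1, 0)) = true :=
    eq_true_of_ne_false fun c => by
      have := (colB_pt (r := 20 * q) (by simp only [zd, Prod.fst_zero, Prod.snd_zero]; omega)
        (by push_cast; omega) (by push_cast; omega)).1 c
      simp only at this
      omega
  rw [h8, col_f f (by omega) (by omega), ← prod_congr rfl (f := fun e => sgn (dom τ e)), h6] at h7
  · norm_num [sgn] at h7
  · intro e he
    have a : n e = false := eq_false_of_ne_true fun c => by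
      have := (h1 e c).symm.trans (cut_rem h hM hq he)
      norm_num at this
    rw [h4]
    simp [a, nOf, pwI_eq_one.1 (cut_pres h hq he)]

end ITub

end Vale.Agent.P144Z
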