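import Vale.Agent.P144D.I.T.Low
import Vale.Agent.P144D.I.DefsN2

/-!
In a tube the contours that wind around have a positive share.
-/

namespace Vale.Agent.P144Z

open Finset Matrix IConv IT

namespace ITub

variable {M : ℕ} [NeZero M] {W : Finset (Tor M)} {T q N : ℕ} {f : Tor M}

omit [NeZero M] in
theorem cutG_one (h : Tube W T q N f) (hq : 1 ≤ q) : cutG W f (64 * q) 1 = pwI W := by
  funext e
  unfold cutG
  split_ifs with he
  exacts [(cut_pres h hq he).symm, rfl]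

theorem Z_split (h : Tube W T q N f) (hM : 64 * T ≤ M) (hq : 1 ≤ q) :
    Zw par0 (cutG W f (64 * q) 1) 1 + Zw par0 (cutG W f (64 * q) (-1)) 1 =
      Zp W (fun σ => DH1.Cst W σ ∧ σ f = σ (f + prj M (64 * q + 1, 0))) ∧
    Zw par0 (cutG W f (64 * q) 1) 1 - Zw par0 (cutG W f (64 * q) (-1)) 1 =
      Zp W (fun σ => DH1.Cst W σ ∧ σ f ≠ σ (f + prj M (64 * q + 1, 0))) := by
  have hT := h.q_le
  have h1 : ∀ e, cutG W f (64 * q) (-1) e ≠ 0 → e.1 ∈ W ∨ oth e ∈ W := fun e he => by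
    unfold cutG at he
    split_ifs at he with h2
    exacts [pwI_eq_one.1 (cut_pres h hq h2), ILB.pw_ne.1 he]
  have h2 := fun σ => prod_cut σ f (m := 64 * q) (by omega)
  push_cast at h2
  rw [ILB.Zw_eq (boxW h hM hq) (by omega) h1, cutG_one h hq,
    ILB.Zw_eq (boxW h hM hq) (by omega) fun e => ILB.pw_ne.1]
  simp only [ILB.wt_neg W f (64 * q) 1, cutG_one h hq, h2]
  simp only [ILB.wt_smul, wt_dom, mul_sum, ← sum_add_distrib, ← sum_sub_distrib, Zp]
  generalize f + prj M (64 * q + 1, 0) = g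
  refine ⟨sum_congr rfl fun σ _ => ?_, sum_congr rfl fun σ _ => ?_⟩ <;>
    by_cases h3 : DH1.Cst W σ <;> rcases Bool.eq_false_or_eq_true (σ f) with a | a <;>
    rcases Bool.eq_false_or_eq_true (σ g) with b | b <;> simp [h3, sgn, a, b] <;> ring

theorem even_le (h : Tube W T q N f) (hM : 64 * T ≤ M) (hq : 1 ≤ q) :
    Zw par0 (cutG W f (64 * q) 1) 1 + Zw par0 (cutG W f (64 * q) (-1)) 1 ≤
      2 * Zb W fun _ => true := by
  have hT := h.q_le
  rw [(Z_split h hM hq).1]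
  refine Zp_le_two fun σ hσ u v hu hv => ?_
  have h2 := prod_cut σ f (m := 64 * q) (by omega)
  push_cast at h2
  rw [← hσ.2, I1.sgn_mul_self] at h2
  obtain ⟨τ, h3, h4⟩ := ILB.Tube.parity h hM (σ := σ) (fun e he => by
    rw [pwI_eq_one]
    by_contra h3
    rw [not_or] at h3
    rw [DH1.dom_eq_false.2 (hσ.1 e h3.1 h3.2)] at he
    exact Bool.false_ne_true he) h2 hq
  rcases (I1.dom_eq_iff τ σ).1 h4.symm with rfl | rfl
  · rw [h3 u hu, h3 v hv]
  · simp only [h3 u hu, h3 v hv]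

theorem le_odd (h : Tube W T q N f) (hM : 64 * T ≤ M) (hq : 1 ≤ q) {τ : Tor M → Bool}
    (h1 : DH1.Cst W τ) (h2 : τ f ≠ τ (f + prj M (64 * q + 1, 0))) :
    Zb W τ ≤ Zw par0 (cutG W f (64 * q) 1) 1 - Zw par0 (cutG W f (64 * q) (-1)) 1 := by
  rw [(Z_split h hM hq).2, Zb_eq]
  refine Zp_mono W fun σ hσ => ⟨fun e e1 e2 => ?_, ?_⟩
  · rw [hσ _ e1, hσ _ e2, h1 e e1 e2]
  · rwa [hσ _ (f_out h), hσ _ (fR_out h hq)]

/-- The short arc. -/
theorem low_short (hF : FkgStmt) (hS : SecA0) (hW : WickStmt) (h : Tube W T q N f)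
    (hM : 64 * T ≤ M) (hq : 1 ≤ q)
    (hD : ∀ ψ, Dm (pwI (rect f 1 (64 * q) (-(100 * q)) (100 * q))) *ᵥ ψ = 0 → ψ = 0) {c : ℝ}
    (hc : 0 ≤ c) (hφ : ∀ φ, Dm (pwI (rect f 1 (64 * q) (-(100 * q)) (100 * q))) *ᵥ φ =
      Pi.single (colS f (-(60 * q))) 1 → c ≤ |φ (colS f (60 * q))|) :
    c / 2 * Zb W (fun _ => true) ≤ Zb W (colB f (-(60 * q)) (60 * q)) := by
  have hT := h.q_le
  have h1 := corr_rect h hM hq
  have h2 : ∀ j : ℤ, -(60 * q) ≤ j → j < 60 * q →
      f + prj M (1, j) ∈ rect f 1 (64 * q) (-(100 * q)) (100 * q) := fun j j1 j2 =>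
    mem_rect'.2 ⟨(1, j), by simp only; omega, rfl⟩
  refine low hF hS hW (rect_sub h) h1.box h1.conn (by omega) hD
    (mkTau_col h hM hq (rect_sub h) (by omega) (by omega) (by omega) h2)
    (fun u hu => col_in h (by omega) (by omega) hu) (fun e e1 e2 => ?_) hc hφ
  rw [DH1.dom_eq_false]
  rw [pwI_eq_zero] at e1
  have key : ∀ g, g = e.1 ∨ g = oth e → colB f (-(60 * q)) (60 * q) g = true := fun g hg =>
    eq_true_of_ne_false fun c => by
      obtain ⟨j, j1, j2, rfl⟩ := colB_false.1 c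
      obtain ⟨⟨v1, v2⟩, ⟨w1, w2⟩, ev, ew, h4, h5⟩ := edge_rep (hg.imp Eq.symm Eq.symm)
      simp only [Prod.mk.injEq, Prod.mk_sub_mk] at h4 h5
      rw [pwI_eq_one, ev, ew, h.loc _ (zd_le0.2 (by push_cast; omega)),
        h.loc _ (zd_le0.2 (by push_cast; omega))] at e2
      simp only at e2
      obtain ⟨rfl, rfl⟩ : v1 = 1 ∧ v2 = j := by omega
      exact e1.1 (ev ▸ h2 _ j1 j2)
  rw [key _ (Or.inl rfl), key _ (Or.inr rfl)]

theorem core (hF : FkgStmt) (hS : SecA0) (hC : CwStmt) (hW : WickStmt) (h : Tube W T q N f)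
    (hM : 64 * T ≤ M) (hq : 1 ≤ q) (hD : ∀ ψ, Dm (pwI (W \ row f (64 * q))) *ᵥ ψ = 0 → ψ = 0)
    {a b C : ℝ} (ha : 0 ≤ a) (hb : 0 < b) (hC0 : 0 < C)
    (hA : a / 2 * Zb W (fun _ => true) ≤ Zb W (colB f (-(60 * q)) (60 * q)))
    (hφ : ∀ φ, Dm (pwI (W \ row f (64 * q))) *ᵥ φ = Pi.single (colS f (-(20 * q))) 1 →
      b ≤ |φ (colS f (20 * q))|)
    (hU : Zb W (colB f (-(60 * q)) (-(20 * q)) ⊓ colB f (20 * q) (60 * q)) ≤
      C * Zb W fun _ => true) :
    a * b / (8 * C) * (Zw par0 (cutG W f (64 * q) 1) 1 + Zw par0 (cutG W f (64 * q) (-1)) 1) ≤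
      Zw par0 (cutG W f (64 * q) 1) 1 - Zw par0 (cutG W f (64 * q) (-1)) 1 := by
  classical
  have hT := h.q_le
  have hE := mkTau_col h hM hq Subset.rfl (a := -(20 * q)) (b := 20 * q) (by omega) (by omega)
    (by omega) fun j j1 j2 => by
      rw [h.loc _ (zd_le0.2 (by push_cast; omega))]
      simp only
      omega
  obtain ⟨n, n1, n2⟩ := exists_path hC hW h.cor.box (by omega) hD hE.inj hb hφ
  have hn := not_conn hS h hM hq n1 n2
  obtain ⟨τ, hτ⟩ : ∃ τ : Tor M → Bool, ∀ u, τ u = false ↔ OutConn W f u :=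
    ⟨fun u => !decide (OutConn W f u), fun u => by simp⟩
  have t1 : DH1.Cst W τ := fun e e1 e2 => by
    obtain ⟨i, hi⟩ : ∃ i, e.1 = oth e + uv M i := ⟨_, (sub_add_cancel _ _).symm⟩
    have : τ e.1 = false ↔ τ (oth e) = false := by
      rw [hτ, hτ]
      exact ⟨fun c => c.tail ⟨e1, e2, i, Or.inr hi⟩, fun c => c.tail ⟨e2, e1, i, Or.inl hi⟩⟩
    revert this
    cases τ e.1 <;> cases τ (oth e) <;> simp
  have t2 : ∀ u ∈ W, τ u = true := fun u hu => eq_true_of_ne_false fun c => by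
    rcases ((hτ u).1 c).cases_tail with rfl | ⟨_, _, c⟩
    exacts [f_out h hu, c.2.1 hu]
  have t3 : τ (f + prj M (64 * q + 1, 0)) = true := eq_true_of_ne_false fun c => hn ((hτ _).1 c)
  have t4 : ∀ u {a b : ℤ}, -a ≤ 128 * q → b ≤ 128 * q → colB f a b u = false → τ u = false := by
    intro u a b a1 a2 c
    obtain ⟨j, j1, j2, rfl⟩ := colB_false.1 c
    exact (hτ _).2 (col_conn h (by omega) (by omega))
  set E := colB f (-(20 * q)) (20 * q) with hE'
  have t5 : ∀ u, E u = false → τ u = false := fun u => t4 u (by omega) (by omega)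
  have s1 : ∀ e, pwI W e = 0 → dom (fun u => τ u || !E u) e = dom E e := fun e he => by
    rw [pwI_eq_zero] at he
    show xor (τ e.1 || !E e.1) (τ (oth e) || !E (oth e)) = xor (E e.1) (E (oth e))
    have k1 := t1 e he.1 he.2
    have k2 := t5 e.1
    have k3 := t5 (oth e)
    revert k1 k2 k3
    cases τ e.1 <;> cases τ (oth e) <;> cases E e.1 <;> cases E (oth e) <;> simp
  have s2 : ∀ e, pwI (W \ row f (64 * q)) e = 0 → pwI W e = 1 →
      dom (fun u => τ u || !E u) e = false := fun e e1 e2 => by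
    obtain ⟨a, b⟩ := row_edge h hM hq e1 e2 (P := fun u => (τ u || !E u) = true)
      (fun g hg => by simp [t2 g (row_sub h hg)])
      (by simp [hE', col_f f (a := -(20 * q)) (b := 20 * q) (by omega) (by omega)]) (by simp [t3])
    exact (DH1.dom_eq_false (σ := fun u => τ u || !E u)).2 (a.trans b.symm)
  have s3 : MkTau (W \ row f (64 * q)) (fun u => τ u || !E u)
      ![colS f (20 * q), colS f (-(20 * q))] := by
    refine ⟨hE.inj, fun i => ⟨⟨0, ?_⟩, ?_⟩, fun x d ⟨k, hk⟩ hr => ?_⟩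
    · fin_cases i
      · show f + prj M (1, 20 * q) - prj M (0, 0) ∈ _
        rw [pt_sub, memU h hM hq (zd_le0.2 (by simp; omega))]
        simp
        omega
      · show f + prj M (1, -(20 * q)) - prj M (0, 0) ∈ _
        rw [pt_sub, memU h hM hq (zd_le0.2 (by simp; omega))]
        simp
        omega
    · have := pwI_eq_zero.1 (hE.mk1 i).2
      exact pwI_eq_zero.2 ⟨fun c => this.1 (sdiff_subset c), fun c => this.2 (sdiff_subset c)⟩
    · rcases pwI_val W (hedge (x, d)) with c | c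
      · rw [s1 _ c]
        exact hE.wall x d ⟨k, sdiff_subset hk⟩ c
      · rw [s2 _ hr c]
        refine ⟨fun a => absurd a Bool.false_ne_true, fun ⟨i, hi⟩ => ?_⟩
        rw [← hi, (hE.mk1 i).2] at c
        exact absurd c zero_ne_one
  have hB := low hF hS hW sdiff_subset h.cor.box h.cor.conn (by omega) hD s3
    (fun u hu => by simp [t2 u hu]) s2 hb.le hφ
  have h1 := (hF M W).1 (colB f (-(60 * q)) (60 * q)) fun u => τ u || !E u
  have sub : ∀ u {a b a' b' : ℤ}, a' ≤ a → b ≤ b' → colB f a b u = false →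
      colB f a' b' u = false := by
    intro u a b a' b' a1 a2 c
    obtain ⟨j, j1, j2, e⟩ := colB_false.1 c
    exact colB_false.2 ⟨j, by omega, by omega, e⟩
  have e1 : (colB f (-(60 * q)) (60 * q) ⊓ fun u => τ u || !E u) = τ := funext fun u => by
    rw [Pi.inf_apply]
    have k1 := t4 u (a := -(60 * q)) (b := 60 * q) (by omega) (by omega)
    have k2 := sub u (a := -(20 * q)) (b := 20 * q) (a' := -(60 * q)) (b' := 60 * q) (by omega)
      (by omega)
    rw [← hE'] at k2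
    revert k1 k2
    cases τ u <;> cases E u <;> cases colB f (-(60 * q)) (60 * q) u <;> simp
  have e2 : (colB f (-(60 * q)) (60 * q) ⊔ fun u => τ u || !E u) =
      colB f (-(60 * q)) (-(20 * q)) ⊓ colB f (20 * q) (60 * q) := funext fun u => by
    rw [Pi.inf_apply, Pi.sup_apply]
    cases c : colB f (-(60 * q)) (60 * q) u
    · rw [t4 u (by omega) (by omega) c]
      obtain ⟨j, j1, j2, rfl⟩ := colB_false.1 c
      have k : ∀ a b : ℤ, -a ≤ 60 * q → b ≤ 60 * q →
          (colB f a b (f + prj M (0, j)) = false ↔ a ≤ j ∧ j < b) := fun a b a1 a2 => by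
        rw [colB_pt (r := 60 * q) (by simp only [zd, Prod.fst_zero, Prod.snd_zero]; omega)
          (by push_cast; omega) (by push_cast; omega)]
        simp
      have k1 := k (-(20 * q)) (20 * q) (by omega) (by omega)
      have k2 := k (-(60 * q)) (-(20 * q)) (by omega) (by omega)
      have k3 := k (20 * q) (60 * q) (by omega) (by omega)
      rw [← hE'] at k1
      revert k1 k2 k3
      cases E (f + prj M (0, j)) <;> cases colB f (-(60 * q)) (-(20 * q)) (f + prj M (0, j)) <;>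
        cases colB f (20 * q) (60 * q) (f + prj M (0, j)) <;> simp <;> omega
    · have k1 := sub u (a := -(60 * q)) (b := -(20 * q)) (b' := 60 * q) le_rfl (by omega)
      have k2 := sub u (a := 20 * q) (b := 60 * q) (a' := -(60 * q)) (by omega) le_rfl
      rw [c] at k1 k2
      revert k1 k2
      cases colB f (-(60 * q)) (-(20 * q)) u <;> cases colB f (20 * q) (60 * q) u <;> simp
  rw [e1, e2] at h1
  have h2 := le_odd h hM hq t1 (by rw [t3, (hτ f).2 Relation.ReflTransGen.refl]; simp)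
  have h3 := even_le h hM hq
  have h4 := Zb_pos W
  have h5 : a / 2 * Zb W (fun _ => true) * (b / 2 * Zb W fun _ => true) ≤
      Zb W τ * (C * Zb W fun _ => true) :=
    ((mul_le_mul hA hB (by positivity) (Zb_nonneg _ _)).trans h1).trans
      (mul_le_mul_of_nonneg_left hU (Zb_nonneg _ _))
  refine le_trans (mul_le_mul_of_nonneg_left h3 (by positivity)) (le_trans ?_ h2)
  rw [div_mul_eq_mul_div, div_le_iff₀ (by positivity)]
  refine le_of_mul_le_mul_right ?_ h4
  nlinarith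

theorem dom_top {A : Gauge M} {L J : ℕ} {s : Tor M × Fin 4} {u : ℕ → Tor M × Fin 4 → ℝ}
    {ν : ℕ → ℝ} {c η : ℝ} (h : MkCh A L J s u ν c η) (hJ : 1 ≤ J) :
    Dom A (sc L J) s.1 (Pi.single s 1) (ν J) := by
  obtain ⟨j, rfl⟩ : ∃ j, J = j + 1 := ⟨J - 1, by omega⟩
  rcases Nat.eq_zero_or_pos j with rfl | hj
  exacts [h.zero.dom', (h.pos j hj (by omega)).dom']

theorem exists_scale {C L q J₀ : ℕ} (hC : 1 ≤ C) (hL : 2 ≤ L) (hq : C * sc L J₀ ≤ q) :
    ∃ J, J₀ ≤ J ∧ C * sc L J ≤ q ∧ q ≤ C * L * sc L J := by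
  have h1 : ∃ j, q < C * sc L (J₀ + j + 1) := ⟨q, by
    have : q < L ^ (J₀ + q + 1) :=
      lt_of_lt_of_le (Nat.lt_pow_self (by omega)) (Nat.pow_le_pow_right (by omega) (by omega))
    unfold sc
    nlinarith⟩
  classical
  refine ⟨J₀ + Nat.find h1, by omega, ?_, ?_⟩
  · rcases Nat.eq_zero_or_pos (Nat.find h1) with e | e
    · rwa [e]
    · have := Nat.find_min h1 (m := Nat.find h1 - 1) (by omega)
      rw [show J₀ + (Nat.find h1 - 1) + 1 = J₀ + Nat.find h1 by omega] at this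
      omega
  · refine (Nat.find_spec h1).le.trans (le_of_eq ?_)
    unfold sc
    ring

end ITub

open ITub

theorem tubeStmt_of (hF : FkgStmt) (hS : SecA0) (hC : CwStmt) (hW : WickStmt) (hG : GapU)
    (hK : MkStmt) (hT : TwoPt2) (hU : Up4) : TubeStmt := by
  intro N
  obtain ⟨c, hc, C₁, hK⟩ := hK
  obtain ⟨η, hη, C₂, L₂, hT⟩ := hT c hc
  obtain ⟨L₁, hK⟩ := hK η hη
  obtain ⟨Γ, -, hG⟩ := hG
  set L := L₁ + L₂ + 2 with hL
  obtain ⟨κ₁, k1, hK⟩ := hK L (by omega)
  obtain ⟨κ₂, k2, hT⟩ := hT L (by omega)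
  set C₀ := C₁ + C₂ + 1 with hC₀
  set N' := N * (C₀ * L) + N + 120 with hN'
  obtain ⟨c₀, c0, J₀, hT⟩ := hT N'
  obtain ⟨C, hC0, hU⟩ := hU N'
  refine ⟨1, one_pos, le_rfl, c₀ ^ 2 / (8 * C), by positivity, C₀ * sc L (J₀ + 1),
    fun q hq M _ W T f h hN hM => ?_⟩
  obtain ⟨J, j1, j2, j3⟩ := exists_scale (by omega) (by omega) hq
  have hs : 1 ≤ sc L J := Nat.mul_pos (by norm_num) (Nat.pow_pos (by omega))
  have j4 : C₁ * sc L J + C₂ * sc L J + sc L J ≤ q := by
    rwa [hC₀, add_mul, add_mul, one_mul] at j2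
  have hq1 : 1 ≤ q := by omega
  have hT' := h.q_le
  have j5 : T ≤ N' * sc L J := hN.trans ((Nat.mul_le_mul_left _ j3).trans (by
    rw [← mul_assoc]
    exact Nat.mul_le_mul_right _ (by omega)))
  have hch : ∀ a : ℤ, -a ≤ 100 * q → a ≤ 100 * q → ∃ u ν, MkCh (pwI W) L J (colS f a) u ν c η :=
    fun a a1 a2 => hK M W (16 * q) J _ 0 (mkT_col h hq1 k1.le a1 a2) (by omega) (by omega)
      (by omega)
  obtain ⟨u0, ν0, m0⟩ := hch (-(60 * q)) (by omega) (by omega)
  obtain ⟨u1, ν1, m1⟩ := hch (-(20 * q)) (by omega) (by omega)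
  obtain ⟨u2, ν2, m2⟩ := hch (20 * q) (by omega) (by omega)
  obtain ⟨u3, ν3, m3⟩ := hch (60 * q) (by omega) (by omega)
  have p0 := m0.nu_pos le_rfl
  have p1 := m1.nu_pos le_rfl
  have p2 := m2.nu_pos le_rfl
  have p3 := m3.nu_pos le_rfl
  have inj : ∀ {X : Finset (Tor M)} {n : ℕ} {p p' : Tor M}, Corr X T q n p p' →
      ∀ ψ, Dm (pwI X) *ᵥ ψ = 0 → ψ = 0 := fun {X n _ _} hX =>
    IT.inj_of_gap (hG M X T n (by omega) (by omega) hX.box hX.tr)
  have two : ∀ (X : Finset (Tor M)) (a : ℕ) {u u' ν ν'}, 20 * q ≤ a → a ≤ 60 * q → X ⊆ W →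
      Corr X T q N' (f + prj M (1, -(a : ℤ)) + prj M ((8 * q : ℕ) • st4 0))
        (f + prj M (1, a) + prj M ((8 * q : ℕ) • st4 0)) →
      (∀ v : ℤ × ℤ, zd v 0 ≤ 100 * q → v.2 ≠ 0 → f + prj M v ∈ W → f + prj M v ∈ X) →
      MkCh (pwI W) L J (colS f (-(a : ℤ))) u ν c η → MkCh (pwI W) L J (colS f a) u' ν' c η →
      ∀ φ, Dm (pwI X) *ᵥ φ = Pi.single (colS f (-(a : ℤ))) 1 →
        c₀ * ν J * ν' J ≤ |φ (colS f a)| := by
    intro X a u u' ν ν' a1 a2 hX h1 h2 h3 h4
    refine hT J (by omega) M X W T q _ _ 0 0 u u' ν ν' h1 hX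
      (side_col hX fun v hv => h2 v ?_ ?_) (side_col hX fun v hv => h2 v ?_ ?_)
      (mkT_col h hq1 k2.le (by omega) (by omega)) (mkT_col h hq1 k2.le (by omega) (by omega))
      ?_ (by omega) (by omega) j5 hM h3 h4
    iterate 4
      simp only [zd, Prod.fst_zero, Prod.snd_zero] at hv ⊢
      omega
    rw [tdist_pt f (by simp only [zd]; omega)]
    simp only [zd]
    omega
  have hA := two _ (60 * q) (by omega) le_rfl (rect_sub h)
    (by simpa only [Nat.cast_mul, Nat.cast_ofNat] using corr_mono (corr_rect h hM hq1) (by omega))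
    (fun v hv _ h2 => by
      rw [h.loc v (by omega)] at h2
      rw [zd_le0] at hv
      push_cast at hv
      exact mem_rect'.2 ⟨v, by omega, rfl⟩)
    (by simpa only [Nat.cast_mul, Nat.cast_ofNat] using m0)
    (by simpa only [Nat.cast_mul, Nat.cast_ofNat] using m3)
  have hB := two _ (20 * q) le_rfl (by omega) sdiff_subset
    (by simpa only [Nat.cast_mul, Nat.cast_ofNat] using corr_mono (corr_cut h hM hq1) (by omega))
    (fun v hv h1 h2 => by
      rw [h.loc v (by omega)] at h2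
      exact (memU h hM hq1 (by omega)).2 ⟨h2.1, h2.2, h1⟩)
    (by simpa only [Nat.cast_mul, Nat.cast_ofNat] using m1)
    (by simpa only [Nat.cast_mul, Nat.cast_ofNat] using m2)
  simp only [Nat.cast_mul, Nat.cast_ofNat] at hA hB
  have h4 := hU M W T q (sc L J) f ![ν0 J, ν1 J, ν2 J, ν3 J] (tube_mono h (by omega)) hM hs
    (by omega) j5 (fun i => by fin_cases i; exacts [p0.le, p1.le, p2.le, p3.le]) fun i => by
      fin_cases i
      · simpa using dom_top m0 (by omega)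
      · simpa using dom_top m1 (by omega)
      · simpa using dom_top m2 (by omega)
      · simpa using dom_top m3 (by omega)
  rw [show ∏ i, ![ν0 J, ν1 J, ν2 J, ν3 J] i = ν0 J * ν1 J * ν2 J * ν3 J from
    Fin.prod_univ_four _] at h4
  have h5 := core hF hS hC hW h hM hq1 (inj h.cor) (by positivity) (by positivity) (by positivity)
    (low_short hF hS hW h hM hq1 (inj (corr_rect h hM hq1)) (by positivity) hA) hB h4
  refine le_trans (le_of_eq ?_) h5
  congr 1
  field_simp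

end Vale.Agent.P144Z
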