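import Vale.Agent.P144D.I.T.Geo

/-!
The two corridors of a tube: a rectangle across the cut, and the tube without the cut.
-/

namespace Vale.Agent.P144Z

open Finset Matrix

namespace ITub

variable {M : ℕ}

/-- A chain of `n` steps. -/
def Ch (I : Finset (Tor M)) (q n : ℕ) (p p' : Tor M) : Prop :=
  ∃ c : ℕ → Tor M, c 0 = p ∧ c n = p' ∧ (∀ i < n, tdist (c (i + 1)) (c i) ≤ q) ∧
    ∀ i ≤ n, ∀ f, tdist f (c i) ≤ 2 * q → f ∈ I

theorem Ch.trans {I : Finset (Tor M)} {q n n' : ℕ} {p p' p'' : Tor M} (h : Ch I q n p p')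
    (h' : Ch I q n' p' p'') : Ch I q (n + n') p p'' := by
  obtain ⟨c, c0, c1, c2, c3⟩ := h
  obtain ⟨d, d0, d1, d2, d3⟩ := h'
  have e : ∀ i, n ≤ i → (if i ≤ n then c i else d (i - n)) = d (i - n) := by
    intro i hi
    split_ifs with h
    · rw [le_antisymm h hi, Nat.sub_self, c1, d0]
    · rfl
  refine ⟨fun i => if i ≤ n then c i else d (i - n), by simp [c0], ?_, ?_, ?_⟩
  · exact (e _ (Nat.le_add_right _ _)).trans (by rw [Nat.add_sub_cancel_left, d1])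
  · intro i hi
    rcases lt_or_ge i n with h | h
    · simp only [if_pos h.le, if_pos (Nat.succ_le_of_lt h)]
      exact c2 i h
    · simp only [e i h, e (i + 1) (by omega)]
      rw [show i + 1 - n = i - n + 1 by omega]
      exact d2 _ (by omega)
  · intro i hi
    rcases le_or_gt i n with h | h
    · simp only [if_pos h]
      exact c3 i h
    · simp only [e i h.le]
      exact d3 _ (by omega)

/-- The faces of a rectangle. -/
noncomputable def rect (f : Tor M) (a b c d : ℤ) : Finset (Tor M) :=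
  (Icc a b ×ˢ Icc c d).image fun v => f + prj M v

theorem mem_rect' {f g : Tor M} {a b c d : ℤ} : g ∈ rect f a b c d ↔
    ∃ v : ℤ × ℤ, (a ≤ v.1 ∧ v.1 ≤ b ∧ c ≤ v.2 ∧ v.2 ≤ d) ∧ g = f + prj M v := by
  simp only [rect, mem_image, mem_product, mem_Icc]
  constructor
  · rintro ⟨v, ⟨⟨h1, h2⟩, h3, h4⟩, rfl⟩
    exact ⟨v, ⟨h1, h2, h3, h4⟩, rfl⟩
  · rintro ⟨v, ⟨h1, h2, h3, h4⟩, rfl⟩
    exact ⟨v, ⟨⟨h1, h2⟩, h3, h4⟩, rfl⟩

theorem TrB.mono' {I : Finset (Tor M)} {z : Tor M} {ρ N N' : ℕ} (h : TrB I z ρ N) (hN : N ≤ N') :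
    TrB I z ρ N' := by
  obtain ⟨Hs, Vs, h1, h2, h3⟩ := h
  exact ⟨Hs, Vs, h1, fun t => (h2 t).trans hN, fun t => (h3 t).trans hN⟩

theorem corr_mono {I : Finset (Tor M)} {T q N N' : ℕ} {p p' : Tor M} (h : Corr I T q N p p')
    (hN : N ≤ N') : Corr I T q N' p p' := by
  obtain ⟨n, hn, c⟩ := h.chain
  exact ⟨h.box, h.conn, TrB.mono' h.tr hN, n, hn.trans hN, c⟩

theorem tube_mono {W : Finset (Tor M)} {T q N N' : ℕ} {f : Tor M} (h : Tube W T q N f)
    (hN : N ≤ N') : Tube W T q N' f :=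
  ⟨h.loc, h.f_le, h.q_le, corr_mono h.cor hN⟩

theorem mark_in (f : Tor M) (q : ℕ) (a : ℤ) :
    f + prj M (1, a) + prj M ((8 * q : ℕ) • st4 0) = f + prj M (8 * q + 1, a) := by
  rw [pt_add]
  simp [st4, add_comm]

variable [NeZero M]

theorem ch_line {I : Finset (Tor M)} {q n : ℕ} (f : Tor M) {u u' : ℤ × ℤ}
    (hn : zd u' u ≤ n * q) (h : ∀ v : ℤ × ℤ, min u.1 u'.1 - 2 * q ≤ v.1 →
      v.1 ≤ max u.1 u'.1 + 2 * q → min u.2 u'.2 - 2 * q ≤ v.2 → v.2 ≤ max u.2 u'.2 + 2 * q →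
        f + prj M v ∈ I) : Ch I q n (f + prj M u) (f + prj M u') := by
  refine ⟨fun i => f + prj M (u.1 + max (-((i * q : ℕ) : ℤ)) (min ((i * q : ℕ) : ℤ) (u'.1 - u.1)),
    u.2 + max (-((i * q : ℕ) : ℤ)) (min ((i * q : ℕ) : ℤ) (u'.2 - u.2))), ?_, ?_, ?_, ?_⟩
  · refine congrArg (f + prj M ·) (Prod.ext ?_ ?_) <;> simp only [zero_mul] <;> omega
  · rw [zd_le] at hn
    refine congrArg (f + prj M ·) (Prod.ext ?_ ?_) <;> simp only <;> omega
  · intro i _
    refine (G.tdist_add_prj_le' _ _ _).trans ?_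
    simp only [Nat.succ_mul]
    omega
  · intro i _ g hg
    obtain ⟨v, rfl, hv⟩ := rep hg
    rw [zd_le] at hv
    simp only at hv
    refine h v ?_ ?_ ?_ ?_ <;> omega

theorem trB_rect (f : Tor M) (a b c d : ℤ) (ρ : ℕ) : TrB (rect f a b c d) 0 ρ 8 := by
  have card : ∀ (z : ZMod M) (s t : ℤ), (((Icc (s - 2) (s + 1) ∪ Icc (t - 1) (t + 2)).image
      fun i : ℤ => z + i).card ≤ 8) := by
    intro z s t
    refine card_image_le.trans ((card_union_le _ _).trans ?_)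
    rw [Int.card_Icc, Int.card_Icc]
    omega
  refine ⟨univ.filter fun x => x.1 ∈ (Icc (a - 2) (a + 1) ∪ Icc (b - 1) (b + 2)).image
      fun i : ℤ => f.1 + i, univ.filter fun x => x.2 ∈ (Icc (c - 2) (c + 1) ∪
        Icc (d - 1) (d + 2)).image fun i : ℤ => f.2 + i, ?_, fun t => ?_, fun t => ?_⟩
  · rintro x - ⟨⟨g, hg, h1⟩, g', hg', h2⟩
    obtain ⟨u, hu, rfl⟩ := mem_rect'.1 hg
    rw [tdist_comm] at h1
    obtain ⟨v, rfl, hv⟩ := rep h1
    obtain ⟨w, rfl, hw⟩ := rep h2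
    have h3 : ¬ (a ≤ w.1 ∧ w.1 ≤ b ∧ c ≤ w.2 ∧ w.2 ≤ d) := fun h => hg' (mem_rect'.2 ⟨w, h, rfl⟩)
    rw [zd_le] at hv hw
    simp only [mem_filter, mem_univ, true_and, mem_image, mem_union, mem_Icc]
    by_cases h4 : a ≤ w.1 ∧ w.1 ≤ b
    · exact Or.inr ⟨v.2, by omega, rfl⟩
    · exact Or.inl ⟨v.1, by omega, rfl⟩
  · refine le_trans (card_le_card_of_injOn Prod.fst ?_ ?_) (card f.1 a b)
    · intro x hx
      simp only [coe_filter, mem_filter, mem_univ, true_and, Set.mem_ofPred_eq] at hx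
      exact hx.1
    · intro x hx y hy e
      simp only [coe_filter, Set.mem_ofPred_eq] at hx hy
      exact Prod.ext e (hx.2.trans hy.2.symm)
  · refine le_trans (card_le_card_of_injOn Prod.snd ?_ ?_) (card f.2 c d)
    · intro x hx
      simp only [coe_filter, mem_filter, mem_univ, true_and, Set.mem_ofPred_eq] at hx
      exact hx.1
    · intro x hx y hy e
      simp only [coe_filter, Set.mem_ofPred_eq] at hx hy
      exact Prod.ext (hx.2.trans hy.2.symm) e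

theorem connB_prod {I : Finset (Tor M)} {T : ℕ} (hI : ∀ g ∈ I, tdist g 0 ≤ T)
    (hM : 2 * (T + 1) ≤ M) {A B : ℤ → Prop}
    (h : ∀ x : ℤ × ℤ, zd x 0 ≤ T + 1 → (prj M x ∈ I ↔ A x.1 ∧ B x.2)) :
    ConnB I 0 (T + 1) (T + 1) := by
  let P : ℤ × ℤ → Prop := fun x => zd x 0 ≤ T + 1 ∧ prj M x ∉ I
  have far : ∀ x : ℤ × ℤ, zd x 0 = T + 1 → P x := fun x hx => ⟨hx.le, fun c => by
    have := hI _ c
    rw [IConv.tdist_prj_zero (by omega)] at this
    omega⟩
  have key : ∀ x, P x → B5a2.PC P x ((T + 1 : ℕ), (T + 1 : ℕ)) := by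
    rintro ⟨x, y⟩ ⟨h1, h2⟩
    have h3 := zd_le0.1 h1
    simp only at h3
    rw [h _ h1, not_and_or] at h2
    rcases h2 with h2 | h2
    · refine (B5a2.pc_col (P := P) x y (T + 1 : ℕ) fun j j1 j2 => ?_).trans
        (B5a2.pc_row (P := P) (T + 1 : ℕ) x (T + 1 : ℕ) fun j j1 j2 => far _ ?_)
      · have h4 : zd (x, j) 0 ≤ T + 1 := zd_le0.2 (by simp only; omega)
        exact ⟨h4, fun c => h2 ((h _ h4).1 c).1⟩
      · simp only [zd, Prod.fst_zero, Prod.snd_zero]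
        omega
    · refine (B5a2.pc_row (P := P) y x (T + 1 : ℕ) fun j j1 j2 => ?_).trans
        (B5a2.pc_col (P := P) (T + 1 : ℕ) y (T + 1 : ℕ) fun j j1 j2 => far _ ?_)
      · have h4 : zd (j, y) 0 ≤ T + 1 := zd_le0.2 (by simp only; omega)
        exact ⟨h4, fun c => h2 ((h _ h4).1 c).2⟩
      · simp only [zd, Prod.fst_zero, Prod.snd_zero]
        omega
  intro g g' h1 h2 h3 h4
  have a : ∀ g : Tor M, tdist g 0 ≤ T + 1 → g ∉ I → P (lft g) := fun g a b =>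
    ⟨by rwa [IConv.zd_lft_zero], by rwa [prj_lft]⟩
  have b := IConv.lift_rch (Q := fun g => tdist g 0 ≤ T + 1 ∧ g ∉ I) (0 : Tor M)
    (fun v (hv : P v) => by
      rw [zero_add]
      exact ⟨by rw [IConv.tdist_prj_zero (by have := hv.1; omega)]; exact hv.1, hv.2⟩)
    (IConv.rch_iff_pc.2 (Relation.ReflTransGen.trans (key _ (a g h1 h3)) (key _ (a g' h2 h4)).symm))
  rw [zero_add, zero_add, prj_lft, prj_lft] at b
  exact IConv.rtg_mono b fun x y ⟨c, d, e⟩ => ⟨c.1, d.1, c.2, d.2, e⟩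

variable {W : Finset (Tor M)} {T q N : ℕ} {f : Tor M}

omit [NeZero M] in
theorem rect_sub (h : Tube W T q N f) : rect f 1 (64 * q) (-(100 * q)) (100 * q) ⊆ W := by
  intro g hg
  obtain ⟨v, hv, rfl⟩ := mem_rect'.1 hg
  rw [h.loc _ (zd_le0.2 (by push_cast; omega))]
  omega

/-- The short corridor. -/
theorem corr_rect (h : Tube W T q N f) (hM : 64 * T ≤ M) (hq : 1 ≤ q) :
    Corr (rect f 1 (64 * q) (-(100 * q)) (100 * q)) T q 120
      (f + prj M (1, -(60 * q)) + prj M ((8 * q : ℕ) • st4 0))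
      (f + prj M (1, 60 * q) + prj M ((8 * q : ℕ) • st4 0)) := by
  have hT := h.q_le
  have box : ∀ g ∈ rect f 1 (64 * q) (-(100 * q)) (100 * q), tdist g 0 ≤ T :=
    fun g hg => boxW h hM hq g (rect_sub h hg)
  refine ⟨box, ?_, TrB.mono' (trB_rect _ _ _ _ _ _) (by norm_num), 120, le_rfl, ?_⟩
  · have b := h.f_le
    rw [← IConv.zd_lft_zero, zd_le0] at b
    refine connB_prod box (by omega) (A := fun x => 1 ≤ x - (lft f).1 ∧ x - (lft f).1 ≤ 64 * q)
      (B := fun y => -(100 * q) ≤ y - (lft f).2 ∧ y - (lft f).2 ≤ 100 * q) fun x hx => ?_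
    have e : prj M x = f + prj M (x - lft f) := by rw [G.prj_sub, prj_lft, add_sub_cancel]
    rw [e, mem_rect']
    constructor
    · rintro ⟨v, hv, e⟩
      rw [zd_le0] at hx
      have := pt_inj (by simp only [zd, Prod.fst_sub, Prod.snd_sub]; omega) e
      subst this
      exact ⟨⟨hv.1, hv.2.1⟩, hv.2.2⟩
    · rintro ⟨⟨a, b⟩, c⟩
      exact ⟨_, ⟨a, b, c⟩, rfl⟩
  · rw [mark_in, mark_in]
    refine ch_line f (zd_le.2 (by push_cast; omega)) fun v a b c d => mem_rect'.2 ⟨v, ?_, rfl⟩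
    simp only at a b c d
    omega

/-- The long corridor. -/
theorem corr_cut (h : Tube W T q N f) (hM : 64 * T ≤ M) (hq : 1 ≤ q) :
    Corr (W \ row f (64 * q)) T q (N + 48)
      (f + prj M (1, -(20 * q)) + prj M ((8 * q : ℕ) • st4 0))
      (f + prj M (1, 20 * q) + prj M ((8 * q : ℕ) • st4 0)) := by
  obtain ⟨n, hn, c⟩ := h.cor.chain
  refine ⟨h.cor.box, h.cor.conn, TrB.mono' h.cor.tr (by omega), 24 + n + 24, by omega, ?_⟩
  rw [mark_in, mark_in]
  refine ((ch_line f (u' := (32 * q, -(8 * q))) (zd_le.2 (by push_cast; omega))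
    fun v a b c d => ?_).trans c).trans
    (ch_line f (zd_le.2 (by push_cast; omega)) fun v a b c d => ?_)
  all_goals
    simp only at a b c d
    rw [memU h hM hq (zd_le0.2 (by push_cast; omega))]
    omega

end ITub

end Vale.Agent.P144Z
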